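import Crest.Agent.R292.Cat

/-! # R292 CALC: the calculus of uniform oracle computations (helper26) -/

set_option autoImplicit false

open Filter Topology

namespace Crest.Agent.R292

section uc
variable {ι α β γ : Type} [Primcodable α] [Primcodable β] [Primcodable γ] {X : ι → R}

theorem UC.prim {g : α → β} (hg : Primrec g) : UC X fun _ => g := by
  exact ⟨fun _ a => some (g a), (Primrec.option_some.comp (hg.comp Primrec.snd)).to₂,
    fun _ a => ⟨fun _ _ h => (Option.some.inj h).symm, 0, fun _ _ => rfl⟩⟩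

theorem UC.oracle : UC X fun i => X i := by
  refine ⟨fun l n => l[n]?, Primrec.list_getElem?, fun i n => ⟨fun s v h => ?_, n + 1, fun s hs => ?_⟩⟩
  · simp only [pre_getElem?] at h
    split_ifs at h
    exact (Option.some.inj h).symm
  · simp only [pre_getElem?]
    rw [if_pos (by omega)]

theorem UC.of_eq {f g : ι → α → β} (h : UC X f) (H : ∀ i a, f i a = g i a) : UC X g := by
  have : f = g := funext fun i => funext (H i)
  exact this ▸ h

theorem UC.comp {f : ι → β → γ} {g : ι → α → β} (hf : UC X f) (hg : UC X g) :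
    UC X fun i a => f i (g i a) := by
  obtain ⟨φ, hφ, Hf⟩ := hf
  obtain ⟨ψ, hψ, Hg⟩ := hg
  refine ⟨fun l a => (ψ l a).bind (φ l), (Primrec.option_bind hψ
    (hφ.comp (Primrec.fst.comp Primrec.fst) Primrec.snd).to₂).to₂, fun i a => ⟨fun s v h => ?_, ?_⟩⟩
  · obtain ⟨u, h1, h2⟩ := Option.bind_eq_some_iff.1 h
    rw [(Hg i a).1 s u h1] at h2
    exact (Hf i _).1 s v h2
  · obtain ⟨N, hN⟩ := (Hg i a).2
    obtain ⟨M, hM⟩ := (Hf i (g i a)).2
    refine ⟨max N M, fun s hs => ?_⟩
    simp only [hN s (le_of_max_le_left hs), Option.bind_some, hM s (le_of_max_le_right hs)]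

theorem UC.pair {f : ι → α → β} {g : ι → α → γ} (hf : UC X f) (hg : UC X g) :
    UC X fun i a => (f i a, g i a) := by
  obtain ⟨φ, hφ, Hf⟩ := hf
  obtain ⟨ψ, hψ, Hg⟩ := hg
  refine ⟨fun l a => (φ l a).bind fun u => (ψ l a).map fun v => (u, v), (Primrec.option_bind hφ
    (Primrec.option_map (Primrec.comp hψ Primrec.fst)
      (Primrec.pair (Primrec.snd.comp Primrec.fst) Primrec.snd).to₂).to₂).to₂,
    fun i a => ⟨fun s v h => ?_, ?_⟩⟩
  · obtain ⟨u, h1, h2⟩ := Option.bind_eq_some_iff.1 h
    obtain ⟨w, h3, rfl⟩ := Option.map_eq_some_iff.1 h2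
    rw [(Hf i a).1 s u h1, (Hg i a).1 s w h3]
  · obtain ⟨N, hN⟩ := (Hg i a).2
    obtain ⟨M, hM⟩ := (Hf i a).2
    refine ⟨max N M, fun s hs => ?_⟩
    simp only [hN s (le_of_max_le_left hs), Option.bind_some, hM s (le_of_max_le_right hs),
      Option.map_some]

theorem UC.map {f : ι → α → β} {g : β → γ} (hf : UC X f) (hg : Primrec g) :
    UC X fun i a => g (f i a) := by
  exact (UC.prim hg).comp hf

theorem UC.arg {f : ι → β → γ} {g : α → β} (hf : UC X f) (hg : Primrec g) :
    UC X fun i a => f i (g a) := by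
  exact hf.comp (UC.prim hg)

theorem UC.pre {Y : ι → γ → R} (h : UC X fun i (p : γ × ℕ) => Y i p.1 p.2) :
    UC X fun i (p : γ × ℕ) => pre (Y i p.1) p.2 := by
  obtain ⟨ψ, hψ, H⟩ := h
  refine ⟨fun l p => Nat.rec (some []) (fun k r => r.bind fun u => (ψ l (p.1, k)).map
    fun b => u ++ [b]) p.2, ?_, fun i p => ?_⟩
  · refine (Primrec.nat_rec' (f := fun q : List Bool × γ × ℕ => q.2.2)
      (g := fun _ => (some [] : Option (List Bool)))
      (h := fun q (w : ℕ × Option (List Bool)) => w.2.bind fun u => (ψ q.1 (q.2.1, w.1)).map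
        fun b => u ++ [b])
      (Primrec.snd.comp Primrec.snd) (Primrec.const _) ?_).to₂
    have a1 : Primrec fun z : ((List Bool × γ × ℕ) × ℕ × Option (List Bool)) × List Bool =>
        ψ z.1.1.1 (z.1.1.2.1, z.1.2.1) :=
      hψ.comp (Primrec.fst.comp (Primrec.fst.comp Primrec.fst))
        (Primrec.pair (Primrec.fst.comp (Primrec.snd.comp (Primrec.fst.comp Primrec.fst)))
          (Primrec.fst.comp (Primrec.snd.comp Primrec.fst)))
    have a2 : Primrec₂ fun (z : ((List Bool × γ × ℕ) × ℕ × Option (List Bool)) × List Bool)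
        (b : Bool) => z.2 ++ [b] :=
      (Primrec.list_concat.comp (Primrec.snd.comp Primrec.fst) Primrec.snd).to₂
    have a3 : Primrec fun z : (List Bool × γ × ℕ) × ℕ × Option (List Bool) => z.2.2 :=
      Primrec.snd.comp Primrec.snd
    exact (Primrec.option_bind a3 (Primrec.option_map a1 a2).to₂).to₂
  · obtain ⟨c, t⟩ := p
    induction t with
    | zero => exact ⟨fun _ _ h => (Option.some.inj h).symm, 0, fun _ _ => rfl⟩
    | succ t ih =>
      refine ⟨fun s v h => ?_, ?_⟩
      · obtain ⟨u, h1, h2⟩ := Option.bind_eq_some_iff.1 h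
        obtain ⟨w, h3, rfl⟩ := Option.map_eq_some_iff.1 h2
        rw [ih.1 s u h1, (H i (c, t)).1 s w h3]
        exact (pre_succ _ _).symm
      · obtain ⟨N, hN⟩ := ih.2
        obtain ⟨M, hM⟩ := (H i (c, t)).2
        refine ⟨max N M, fun s hs => ?_⟩
        have h1 := hN s (le_of_max_le_left hs)
        have h2 := hM s (le_of_max_le_right hs)
        simp only at h1 h2 ⊢
        rw [h1, h2, pre_succ]
        rfl

theorem UC.search {f : ι → α → β} {r : ι → α × γ → Option β} (hr : UC X r)
    (h1 : ∀ i a c v, r i (a, c) = some v → v = f i a) (h2 : ∀ i a, ∃ c, r i (a, c) = some (f i a)) :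
    UC X f := by
  obtain ⟨ψ, hψ, H⟩ := hr
  set st : List Bool → α → ℕ → Option β := fun l a k =>
    (Encodable.decode k : Option γ).bind fun c => (ψ l (a, c)).bind id with hst
  have hstp : Primrec fun q : (List Bool × α) × ℕ => st q.1.1 q.1.2 q.2 :=
    Primrec.option_bind (Primrec.decode.comp Primrec.snd) (Primrec.option_bind
      (hψ.comp (Primrec.fst.comp (Primrec.fst.comp Primrec.fst))
        (Primrec.pair (Primrec.snd.comp (Primrec.fst.comp Primrec.fst)) Primrec.snd))
      Primrec.snd.to₂).to₂
  set G : List Bool → α → ℕ → Option β := fun l a m =>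
    Nat.rec none (fun k r => r <|> st l a k) m with hG
  have hs1 : ∀ i a s m v, G (R292.pre (X i) s) a m = some v → v = f i a := by
    intro i a s m
    induction m with
    | zero => intro v h; cases h
    | succ m ih =>
      intro v h
      change (G (R292.pre (X i) s) a m <|> st (R292.pre (X i) s) a m) = some v at h
      cases hg : G (R292.pre (X i) s) a m with
      | some w =>
        rw [hg] at h
        exact ih v (hg.trans h)
      | none =>
        rw [hg] at h
        obtain ⟨c, -, h3⟩ := Option.bind_eq_some_iff.1 h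
        obtain ⟨o, h4, h5⟩ := Option.bind_eq_some_iff.1 h3
        exact h1 i a c v (((H i (a, c)).1 s o h4).symm.trans h5)
  have hs2 : ∀ l a k m, k < m → (st l a k).isSome → (G l a m).isSome := by
    intro l a k m
    induction m with
    | zero => intro h; omega
    | succ m ih =>
      intro hk h
      change (G l a m <|> st l a m).isSome
      cases hg : G l a m with
      | some w => rfl
      | none =>
        rcases Nat.lt_succ_iff_lt_or_eq.1 hk with h' | rfl
        · have := ih h' h
          rw [hg] at this; cases this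
        · exact h
  refine ⟨fun l a => G l a l.length, ?_, fun i a => ⟨fun s v h => hs1 i a s _ v h, ?_⟩⟩
  · exact (Primrec.nat_rec' (f := fun q : List Bool × α => q.1.length)
      (g := fun _ => (none : Option β))
      (h := fun q (w : ℕ × Option β) => w.2 <|> st q.1 q.2 w.1)
      (Primrec.list_length.comp Primrec.fst) (Primrec.const _)
      (Primrec.option_orElse.comp (Primrec.snd.comp Primrec.snd)
        (hstp.comp (Primrec.pair Primrec.fst (Primrec.fst.comp Primrec.snd)))).to₂).to₂
  · obtain ⟨c, hc⟩ := h2 i a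
    obtain ⟨N, hN⟩ := (H i (a, c)).2
    refine ⟨max N (Encodable.encode c + 1), fun s hs => ?_⟩
    have h3 : (st (R292.pre (X i) s) a (Encodable.encode c)).isSome := by
      simp only [hst, Encodable.encodek, Option.bind_some, hN s (le_of_max_le_left hs), hc, id]
      rfl
    have h4 := hs2 _ a _ (R292.pre (X i) s).length
      (by rw [pre_length]; exact le_of_max_le_right hs) h3
    obtain ⟨v, hv⟩ := Option.isSome_iff_exists.1 h4
    exact hv.trans (congrArg some (hs1 i a s _ v hv))

theorem UC.trans {Y : ι → γ → R} {f : ι → γ → α → β} {ψ : List Bool → α → Option β}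
    (hψ : Primrec₂ ψ) (hY : UC X fun i (p : γ × ℕ) => Y i p.1 p.2)
    (h : ∀ i c, Cm ψ (Y i c) (f i c)) : UC X fun i (p : γ × α) => f i p.1 p.2 := by
  refine UC.search (γ := ℕ) (r := fun i q => ψ (R292.pre (Y i q.1.1) q.2) q.1.2) ?_
    (fun i p s v hv => (h i p.1 p.2).1 s v hv) fun i p => ?_
  · exact ((hY.pre.arg (g := fun q : (γ × α) × ℕ => (q.1.1, q.2))
      (Primrec.pair (Primrec.fst.comp Primrec.fst) Primrec.snd)).pair
      (UC.prim (g := fun q : (γ × α) × ℕ => q.1.2) (Primrec.snd.comp Primrec.fst))).map hψ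
  · obtain ⟨N, hN⟩ := (h i p.1 p.2).2
    exact ⟨N, hN N le_rfl⟩

theorem UC.app {Y : ι → R} {f : ι → α → β} {ψ : List Bool → α → Option β} (hψ : Primrec₂ ψ)
    (hY : UC X Y) (h : ∀ i, Cm ψ (Y i) (f i)) : UC X f := by
  exact (UC.trans (γ := Unit) (Y := fun i _ => Y i) (f := fun i _ => f i) hψ (hY.arg Primrec.snd)
    (fun i _ => h i)).arg (g := fun a => ((), a)) (Primrec.pair (Primrec.const _) Primrec.id)

theorem UC.jn {Y Y' : ι → R} (h : UC X Y) (h' : UC X Y') : UC X fun i => jn (Y i) (Y' i) := by
  have hd : Primrec fun n : ℕ => n / 2 := Primrec.nat_div.comp Primrec.id (Primrec.const 2)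
  exact ((UC.prim Primrec.id).pair ((h.arg hd).pair (h'.arg hd))).map
    (g := fun q : ℕ × Bool × Bool => if q.1 % 2 = 0 then q.2.1 else q.2.2)
    (Primrec.ite (Primrec.eq.comp (Primrec.nat_mod.comp Primrec.fst (Primrec.const 2))
      (Primrec.const 0)) (Primrec.fst.comp Primrec.snd) (Primrec.snd.comp Primrec.snd))

theorem UC.left {Y Y' : ι → R} (h : UC X fun i => R292.jn (Y i) (Y' i)) : UC X Y := by
  refine (h.arg (g := fun n : ℕ => 2 * n) (Primrec.nat_mul.comp (Primrec.const 2) Primrec.id)).of_eq
    fun i n => ?_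
  simp [R292.jn]

theorem UC.right {Y Y' : ι → R} (h : UC X fun i => R292.jn (Y i) (Y' i)) : UC X Y' := by
  refine (h.arg (g := fun n : ℕ => 2 * n + 1)
    (Primrec.succ.comp (Primrec.nat_mul.comp (Primrec.const 2) Primrec.id))).of_eq fun i n => ?_
  have : (2 * n + 1) / 2 = n := by omega
  simp [R292.jn, this]

end uc

theorem red_iff_uc {x y : R} : Red y x ↔ UC (fun _ : Unit => x) fun _ => y := by
  exact ⟨fun ⟨ψ, h1, h2⟩ => ⟨ψ, h1, fun _ => h2⟩, fun ⟨ψ, h1, h2⟩ => ⟨ψ, h1, h2 ()⟩⟩

theorem Red.refl (x : R) : Red x x := by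
  exact red_iff_uc.2 UC.oracle

theorem Red.trans {x y z : R} (h : Red x y) (h' : Red y z) : Red x z := by
  obtain ⟨ψ, h1, h2⟩ := h
  exact red_iff_uc.2 (UC.app h1 (red_iff_uc.1 h') fun _ => h2)

theorem eqv_equiv : Equivalence Eqv := by
  exact ⟨fun x => ⟨Red.refl x, Red.refl x⟩, fun h => ⟨h.2, h.1⟩,
    fun h h' => ⟨h.1.trans h'.1, h'.2.trans h.2⟩⟩

theorem red_jn_left (x y : R) : Red x (jn x y) := by
  exact red_iff_uc.2 (UC.left (Y' := fun _ => y) UC.oracle)

theorem red_jn_right (x y : R) : Red y (jn x y) := by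
  exact red_iff_uc.2 (UC.right (Y := fun _ => x) UC.oracle)

theorem Red.jn {x y z : R} (h : Red x z) (h' : Red y z) : Red (jn x y) z := by
  exact red_iff_uc.2 (UC.jn (red_iff_uc.1 h) (red_iff_uc.1 h'))

theorem Red.xr {x y z : R} (h : Red x z) (h' : Red y z) : Red (xr x y) z := by
  exact red_iff_uc.2 (((red_iff_uc.1 h).pair (red_iff_uc.1 h')).map
    (g := fun q : Bool × Bool => xor q.1 q.2) (Primrec.dom_finite _))

/-- eventually false sequences are computable -/
theorem red_fin {d : R} {k : ℕ} (h : ∀ n, k ≤ n → d n = false) (x : R) : Red d x := by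
  refine red_iff_uc.2 ((UC.prim (g := fun n : ℕ => (pre d k).getD n false)
    ((Primrec.list_getD false).comp (Primrec.const _) Primrec.id)).of_eq fun _ n => ?_)
  rw [List.getD_eq_getElem?_getD, pre_getElem?]
  split_ifs with hn
  · rfl
  · exact (h n (not_lt.1 hn)).symm

theorem eqv_spl (k : ℕ) (a x : R) : Eqv (spl k a x) x := by
  constructor
  · refine red_iff_uc.2 ((((UC.prim Primrec.id).pair (UC.oracle.arg (g := fun n : ℕ => n - k)
      (Primrec.nat_sub.comp Primrec.id (Primrec.const k)))).map
      (g := fun q : ℕ × Bool => if q.1 < k then (pre a k).getD q.1 false else q.2)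
      (Primrec.ite (Primrec.nat_lt.comp Primrec.fst (Primrec.const k))
        ((Primrec.list_getD false).comp (Primrec.const _) Primrec.fst) Primrec.snd)).of_eq
      fun _ n => ?_)
    simp only [spl, id, List.getD_eq_getElem?_getD, pre_getElem?]
    split_ifs <;> rfl
  · refine red_iff_uc.2 ((UC.oracle.arg (g := fun n : ℕ => n + k)
      (Primrec.nat_add.comp Primrec.id (Primrec.const k))).of_eq fun _ n => ?_)
    simp [spl]

theorem red_flat (Z : T) (i : ℕ) : Red (Z i) (flat Z) := by
  refine red_iff_uc.2 ((UC.oracle.arg (g := fun n : ℕ => Nat.pair i n)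
    (Primrec₂.natPair.comp (Primrec.const i) Primrec.id)).of_eq fun _ n => ?_)
  simp [flat]

theorem red_upd (Z : T) (i : ℕ) (x : R) : Red (flat (Function.update Z i x)) (jn x (flat Z)) := by
  have h1 := red_iff_uc.1 (red_jn_left x (flat Z))
  have h2 := red_iff_uc.1 (red_jn_right x (flat Z))
  refine red_iff_uc.2 ((((UC.prim Primrec.id).pair ((h1.arg (g := fun n : ℕ => n.unpair.2)
    (Primrec.snd.comp Primrec.unpair)).pair h2)).map
    (g := fun q : ℕ × Bool × Bool => if q.1.unpair.1 = i then q.2.1 else q.2.2)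
    (Primrec.ite (Primrec.eq.comp (Primrec.fst.comp (Primrec.unpair.comp Primrec.fst))
      (Primrec.const i)) (Primrec.fst.comp Primrec.snd) (Primrec.snd.comp Primrec.snd))).of_eq
    fun _ n => ?_)
  simp only [flat, id, Function.update_apply]
  split_ifs <;> rfl

/-- automorphisms preserve joins -/
theorem Aut.jn {f g : R → R} (h : Aut f g) (x y : R) : Red (f (jn x y)) (jn (f x) (f y)) := by
  have h1 : Red x (g (R292.jn (f x) (f y))) :=
    (h.gf x).2.trans ((h.g_iff _ _).2 (red_jn_left _ _))
  have h2 : Red y (g (R292.jn (f x) (f y))) :=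
    (h.gf y).2.trans ((h.g_iff _ _).2 (red_jn_right _ _))
  exact ((h.f_iff _ _).2 (h1.jn h2)).trans (h.fg _).1

/-- a continuous map is computable relative to a fixed oracle -/
theorem cont_red {j : R → R} (hj : Continuous j) : ∃ D : R, ∀ x, Red (j x) (jn x D) := by
  classical
  set D : R := fun n => ((Encodable.decode n : Option (List Bool × ℕ × Bool)).map
    fun q => decide (∀ x, pre x q.1.length = q.1 → j x q.2.1 = q.2.2)).getD false with hD
  have hDe : ∀ q : List Bool × ℕ × Bool, D (Encodable.encode q) = true ↔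
      ∀ x, pre x q.1.length = q.1 → j x q.2.1 = q.2.2 := by
    intro q
    simp only [hD, Encodable.encodek, Option.map_some, Option.getD_some, decide_eq_true_eq]
  refine ⟨D, fun x => red_iff_uc.2 ?_⟩
  have h1 := red_iff_uc.1 (red_jn_left x D)
  have h2 := red_iff_uc.1 (red_jn_right x D)
  have h3 : UC (fun _ : Unit => jn x D) fun _ (p : Unit × ℕ) => pre x p.2 :=
    UC.pre (Y := fun _ _ => x) (h1.arg Primrec.snd)
  refine UC.search (γ := ℕ × Bool) (r := fun _ q =>
    bif D (Encodable.encode (pre x q.2.1, q.1, q.2.2)) then some q.2.2 else none) ?_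
    (fun _ m c v hv => ?_) fun _ m => ?_
  · have h4 := (h3.arg (g := fun q : ℕ × ℕ × Bool => ((), q.2.1))
      (Primrec.pair (Primrec.const _) (Primrec.fst.comp Primrec.snd))).pair
      (UC.prim (g := fun q : ℕ × ℕ × Bool => (q.1, q.2.2))
        (Primrec.pair Primrec.fst (Primrec.snd.comp Primrec.snd)))
    exact ((h2.comp (h4.map Primrec.encode)).pair
      (UC.prim (g := fun q : ℕ × ℕ × Bool => q.2.2) (Primrec.snd.comp Primrec.snd))).map
      (g := fun w : Bool × Bool => bif w.1 then some w.2 else none) (Primrec.dom_finite _)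
  · cases hd : D (Encodable.encode (pre x c.1, m, c.2)) with
    | false => simp only [hd] at hv; cases hv
    | true =>
      simp only [hd] at hv
      have := (hDe _).1 hd x (by simp only [pre_length])
      exact (Option.some.inj hv).symm.trans this.symm
  · have ho : IsOpen {y | j y m = j x m} :=
      (isOpen_discrete {j x m}).preimage ((continuous_apply m).comp hj)
    obtain ⟨k, hk⟩ := cyl ho (a := x) rfl
    refine ⟨(k, j x m), ?_⟩
    have : D (Encodable.encode (pre x k, m, j x m)) = true := by
      refine (hDe _).2 fun y hy => hk y fun n hn => ?_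
      have := congrArg (fun l => l[n]?) hy
      simp only [pre_getElem?, pre_length, if_pos hn] at this
      exact Option.some.inj this
    simp only [this, cond_true]

/-- an enumeration of the functionals -/
theorem exists_en : ∃ en : ℕ → List Bool → ℕ → Option Bool, (∀ e, Primrec₂ (en e)) ∧
    ∀ ψ : List Bool → ℕ → Option Bool, Primrec₂ ψ → ∃ e, en e = ψ := by
  classical
  set G : (List Bool → ℕ → Option Bool) → ℕ →. ℕ := fun ψ n =>
    Part.some (Encodable.encode ((Encodable.decode n : Option (List Bool × ℕ)).map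
      fun p => ψ p.1 p.2)) with hG
  have hinj : ∀ ψ ψ', G ψ = G ψ' → ψ = ψ' := by
    intro ψ ψ' h
    funext l n
    have := congrFun h (Encodable.encode (l, n))
    simpa [hG] using this
  refine ⟨fun e => if h : ∃ ψ, Primrec₂ ψ ∧ (Denumerable.ofNat Nat.Partrec.Code e).eval = G ψ
    then h.choose else fun _ _ => none, fun e => ?_, fun ψ hψ => ?_⟩
  · beta_reduce
    split_ifs with h
    · exact h.choose_spec.1
    · exact (Primrec.const none).to₂
  · obtain ⟨c, hc⟩ := Nat.Partrec.Code.exists_code.1 (Nat.Partrec.of_primrec hψ)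
    have h : ∃ ψ, Primrec₂ ψ ∧
        (Denumerable.ofNat Nat.Partrec.Code (Encodable.encode c)).eval = G ψ :=
      ⟨ψ, hψ, by rw [Denumerable.ofNat_encode]; exact hc⟩
    refine ⟨Encodable.encode c, ?_⟩
    simp only [dif_pos h]
    refine hinj _ _ (h.choose_spec.2.symm.trans ?_)
    rw [Denumerable.ofNat_encode]; exact hc

theorem pre_open (s : ℕ) (Q : List Bool → Prop) : IsOpen {x : R | Q (pre x s)} := by
  refine isOpen_iff_forall_mem_open.2 fun x hx => ⟨_, fun y hy => ?_, isOpen_cyl s x, fun _ _ => rfl⟩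
  rw [Set.mem_ofPred_eq, pre_congr hy]
  exact hx

theorem meas_Cm (ψ : List Bool → ℕ → Option Bool) : MeasurableSet {p : R × R | Cm ψ p.1 p.2} := by
  have key : ∀ (s a : ℕ) (Q : List Bool → Bool → Prop),
      Measurable fun p : R × R => Q (pre p.1 s) (p.2 a) := by
    intro s a Q
    have : (fun p : R × R => Q (pre p.1 s) (p.2 a)) =
        fun p => ∃ b, Q (pre p.1 s) b ∧ p.2 a = b := by
      funext p; simp
    rw [this]
    refine Measurable.exists fun b => Measurable.and ?_ ?_
    · exact (measurableSet_setOfPred.1 (pre_open s fun l => Q l b).measurableSet).comp measurable_fst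
    · have h1 : Measurable fun p : R × R => p.2 a := (measurable_pi_apply a).comp measurable_snd
      exact measurableSet_setOfPred.1 (h1 (measurableSet_singleton b))
  refine measurableSet_setOfPred.2 (Measurable.forall fun a => Measurable.and
    (Measurable.forall fun s => Measurable.forall fun v =>
      key s a fun l b => ψ l a = some v → v = b)
    (Measurable.exists fun N => Measurable.forall fun s =>
      key s a fun l b => N ≤ s → ψ l a = some b))

theorem meas_Red : MeasurableSet {p : R × R | Red p.1 p.2} := by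
  obtain ⟨en, h1, h2⟩ := exists_en
  have : {p : R × R | Red p.1 p.2} = ⋃ e, Prod.swap ⁻¹' {p : R × R | Cm (en e) p.1 p.2} := by
    ext p
    simp only [Set.mem_iUnion]
    constructor
    · rintro ⟨ψ, h3, h4⟩
      obtain ⟨e, rfl⟩ := h2 ψ h3
      exact ⟨e, h4⟩
    · rintro ⟨e, h⟩
      exact ⟨_, h1 e, h⟩
  rw [this]
  exact MeasurableSet.iUnion fun e => measurable_swap (meas_Cm _)

theorem meas_Eqv : MeasurableSet {p : R × R | Eqv p.1 p.2} := by
  exact meas_Red.inter (measurable_swap meas_Red)

theorem meas_jn : Measurable fun p : R × R => jn p.1 p.2 := by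
  refine measurable_pi_lambda _ fun n => ?_
  unfold jn
  split_ifs
  · exact (measurable_pi_apply _).comp measurable_fst
  · exact (measurable_pi_apply _).comp measurable_snd

/-- the reals below `x` are among countably many Borel functions of `x` -/
theorem exists_Phi : ∃ Φ : ℕ → R → R, (∀ e, Measurable (Φ e)) ∧ ∀ x y, Red y x → ∃ e, Φ e x = y := by
  classical
  obtain ⟨en, -, h2⟩ := exists_en
  refine ⟨fun e x n => decide (∃ s, en e (pre x s) n = some true), fun e => ?_, ?_⟩
  · refine measurable_pi_lambda _ fun n => measurable_to_bool ?_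
    have : (fun x : R => decide (∃ s, en e (pre x s) n = some true)) ⁻¹' {true} =
        ⋃ s, {x : R | en e (pre x s) n = some true} := by
      ext x; simp
    rw [this]
    exact MeasurableSet.iUnion fun s => (pre_open s fun l => en e l n = some true).measurableSet
  · rintro x y ⟨ψ, h3, h4⟩
    obtain ⟨e, rfl⟩ := h2 ψ h3
    refine ⟨e, funext fun n => ?_⟩
    cases hy : y n with
    | true =>
      obtain ⟨N, hN⟩ := (h4 n).2
      exact decide_eq_true ⟨N, hy ▸ hN N le_rfl⟩
    | false =>
      refine decide_eq_false fun ⟨s, hs⟩ => ?_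
      have := (h4 n).1 s _ hs
      rw [hy] at this; cases this

/-- what is computable from `x` and non-meagrely many `p` is computable from `x` -/
theorem nm {c x : R} (h : ¬ Red c x) : ∀ᶠ p in residual R, ¬ Red c (jn x p) := by
  obtain ⟨en, h1, h2⟩ := exists_en
  have key : ∀ e, ∀ᶠ p in residual R, ¬ Cm (en e) (jn x p) c := by
    intro e
    refine IsNowhereDense.isMeagre (s := {p | Cm (en e) (jn x p) c}) ?_
    refine Set.eq_empty_of_forall_notMem fun a ha => h ?_
    obtain ⟨k, hk⟩ := cyl isOpen_interior ha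
    set pu : List Bool → R := fun u m => if m < k then a m else u.getD m false with hpu
    have hY : UC (fun _ : Unit => x) fun _ (q : List Bool × ℕ) => jn x (pu q.1) q.2 := by
      have hd : Primrec fun q : List Bool × ℕ => q.2 / 2 :=
        Primrec.nat_div.comp Primrec.snd (Primrec.const 2)
      have hp : Primrec fun q : List Bool × ℕ => pu q.1 (q.2 / 2) := by
        refine (Primrec.ite (Primrec.nat_lt.comp hd (Primrec.const k))
          ((Primrec.list_getD false).comp (Primrec.const (pre a k)) hd)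
          ((Primrec.list_getD false).comp Primrec.fst hd)).of_eq fun q => ?_
        simp only [hpu, List.getD_eq_getElem?_getD, pre_getElem?]
        split_ifs <;> rfl
      exact ((UC.prim Primrec.snd).pair ((UC.oracle.arg hd).pair (UC.prim hp))).map
        (g := fun q : ℕ × Bool × Bool => if q.1 % 2 = 0 then q.2.1 else q.2.2)
        (Primrec.ite (Primrec.eq.comp (Primrec.nat_mod.comp Primrec.fst (Primrec.const 2))
          (Primrec.const 0)) (Primrec.fst.comp Primrec.snd) (Primrec.snd.comp Primrec.snd))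
    have hj : ∀ (p p' : R) (s : ℕ), (∀ m < s, p m = p' m) → pre (jn x p) s = pre (jn x p') s := by
      intro p p' s hs
      refine pre_congr fun m hm => ?_
      unfold jn
      rw [hs (m / 2) (by omega)]
    refine red_iff_uc.2 (UC.search (γ := List Bool)
      (r := fun _ q => en e (pre (jn x (pu q.2)) q.2.length) q.1) ?_ (fun _ n u v hv => ?_)
      fun _ n => ?_)
    · exact (((UC.pre (Y := fun _ u => jn x (pu u)) hY).arg
        (g := fun q : ℕ × List Bool => (q.2, q.2.length))
        (Primrec.pair Primrec.snd (Primrec.list_length.comp Primrec.snd))).pair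
        (UC.prim Primrec.fst)).map (h1 e)
    · have h3 : pu u ∈ closure {p | Cm (en e) (jn x p) c} :=
        interior_subset (hk _ fun m hm => by simp only [hpu, if_pos hm])
      obtain ⟨p, hp1, hp2⟩ := mem_closure_iff.1 h3 _ (isOpen_cyl u.length (pu u)) fun _ _ => rfl
      refine (hp2 n).1 u.length v ?_
      rw [hj p (pu u) _ hp1]; exact hv
    · obtain ⟨p, hp1, hp2⟩ := mem_closure_iff.1 (interior_subset ha) _ (isOpen_cyl k a)
        fun _ _ => rfl
      obtain ⟨N, hN⟩ := (hp2 n).2
      refine ⟨pre p N, ?_⟩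
      simp only [pre_length]
      rw [hj (pu (pre p N)) p N fun m hm => ?_]
      · exact hN N le_rfl
      · simp only [hpu, List.getD_eq_getElem?_getD, pre_getElem?, if_pos hm]
        split_ifs with hmk
        · exact (hp1 m hmk).symm
        · rfl
  filter_upwards [eventually_countable_forall.2 key] with p hp
  rintro ⟨ψ, h3, h4⟩
  obtain ⟨e, rfl⟩ := h2 ψ h3
  exact hp e h4

/-- if `b` can be changed near every point of the open set `S` without changing `a`, then
`b p ≤ a p` only on a meagre subset of `S` -/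
theorem flip {P : Type*} [TopologicalSpace P] {a b : P → R} (ha : Continuous a) (hb : Continuous b)
    {S : Set P} (_hS : IsClopen S)
    (h : ∀ U : Set P, IsOpen U → ∀ p ∈ U, p ∈ S → ∃ p' ∈ U, a p' = a p ∧ b p' ≠ b p) :
    ∀ᶠ p in residual P, p ∈ S → ¬ Red (b p) (a p) := by
  obtain ⟨en, -, h2⟩ := exists_en
  have key : ∀ e, ∀ᶠ p in residual P, ¬ (p ∈ S ∧ Cm (en e) (a p) (b p)) := by
    intro e
    refine IsNowhereDense.isMeagre (s := {p | p ∈ S ∧ Cm (en e) (a p) (b p)}) ?_
    refine Set.eq_empty_of_forall_notMem fun p0 hp0 => ?_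
    obtain ⟨p, hp1, hp2, hp3⟩ := mem_closure_iff.1 (interior_subset hp0) _ isOpen_interior hp0
    obtain ⟨p', h3, h4, h5⟩ := h _ isOpen_interior p hp1 hp2
    obtain ⟨n, hn⟩ := Function.ne_iff.1 h5
    obtain ⟨N, hN⟩ := (hp3 n).2
    have ho : IsOpen ({q | pre (a q) N = pre (a p) N} ∩ {q | b q n = b p' n}) :=
      ((pre_open N fun l => l = pre (a p) N).preimage ha).inter
        ((isOpen_discrete {b p' n}).preimage ((continuous_apply n).comp hb))
    obtain ⟨q, ⟨h6, h7⟩, -, h8⟩ := mem_closure_iff.1 (interior_subset h3) _ ho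
      ⟨by rw [Set.mem_ofPred_eq, h4], rfl⟩
    have := (h8 n).1 N (b p n) (by rw [h6]; exact hN N le_rfl)
    exact hn (h7.symm.trans this.symm)
  filter_upwards [eventually_countable_forall.2 key] with p hp hpS
  rintro ⟨ψ, h3, h4⟩
  obtain ⟨e, rfl⟩ := h2 ψ h3
  exact hp e ⟨hpS, h4⟩

end Crest.Agent.R292
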