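import Crest.Agent.R292.Defs

/-! # R292 CAT: Baire category toolbox (task 292-CAT) -/

set_option autoImplicit false

open Filter Topology

namespace Crest.Agent.R292

section general
variable {X Y : Type*} [TopologicalSpace X] [TopologicalSpace Y]

/-- `dense_of_mem_residual` -/
theorem ev_exists [BaireSpace X] {P : X → Prop} (h : ∀ᶠ x in residual X, P x) {U : Set X}
    (hU : IsOpen U) (hne : U.Nonempty) : ∃ x ∈ U, P x := by
  obtain ⟨x, hx, hxU⟩ := (dense_of_mem_residual h).exists_mem_open hU hne
  exact ⟨x, hxU, hx⟩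

/-- Kuratowski–Ulam.  For `O` open dense in `X × Y` and `V` a nonempty basic open set of `Y`, the
projection of `O ∩ univ ×ˢ V` is open dense (`mem_residual_iff`, `eventually_countable_ball`). -/
theorem ku [SecondCountableTopology Y] {P : X × Y → Prop} (h : ∀ᶠ p in residual (X × Y), P p) :
    ∀ᶠ x in residual X, ∀ᶠ y in residual Y, P (x, y) := by
  obtain ⟨S, h1, h2, h3, h4⟩ := mem_residual_iff.mp h
  have key : ∀ O ∈ S, ∀ᶠ x in residual X, ∀ᶠ y in residual Y, (x, y) ∈ O := by
    intro O hO
    have h5 : ∀ V ∈ TopologicalSpace.countableBasis Y,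
        ∀ᶠ x in residual X, x ∈ Prod.fst '' (O ∩ Set.univ ×ˢ V) := by
      intro V hV
      have hVo := TopologicalSpace.isOpen_of_mem_countableBasis hV
      refine residual_of_dense_open
        (isOpenMap_fst _ ((h1 O hO).inter (isOpen_univ.prod hVo))) ?_
      refine dense_iff_inter_open.mpr fun U hU hUn => ?_
      obtain ⟨p, hp, hpO⟩ := (h2 O hO).inter_open_nonempty _ (hU.prod hVo)
        (hUn.prod (TopologicalSpace.nonempty_of_mem_countableBasis hV))
      exact ⟨p.1, hp.1, p, ⟨hpO, trivial, hp.2⟩, rfl⟩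
    have h6 := (eventually_countable_ball (TopologicalSpace.countable_countableBasis Y)).mpr h5
    refine h6.mono fun x hx => residual_of_dense_open
      ((h1 O hO).preimage (continuous_const.prodMk continuous_id)) ?_
    refine (TopologicalSpace.isBasis_countableBasis Y).dense_iff.mpr fun V hV _ => ?_
    obtain ⟨⟨x', y⟩, ⟨hp, -, hy⟩, rfl⟩ := hx V hV
    exact ⟨y, hy, hp⟩
  refine ((eventually_countable_ball h3).mpr key).mono fun x hx => ?_
  exact ((eventually_countable_ball h3).mpr hx).mono fun y hy => h4 hy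

/-- a Borel set which is not meagre is comeagre in a nonempty open set
(`MeasurableSet.residualEq_isOpen`) -/
theorem loc [MeasurableSpace X] [BorelSpace X] {s : Set X} (hs : MeasurableSet s)
    (hn : ¬ ∀ᶠ x in residual X, x ∉ s) :
    ∃ U : Set X, IsOpen U ∧ U.Nonempty ∧ ∀ᶠ x in residual X, x ∈ U → x ∈ s := by
  obtain ⟨U, hU, hsU⟩ := hs.residualEq_isOpen
  have h1 : ∀ᶠ x in residual X, x ∈ s ↔ x ∈ U := eventuallyEq_set.mp hsU
  refine ⟨U, hU, ?_, h1.mono fun x hx hxU => hx.mpr hxU⟩
  by_contra hne
  exact hn (h1.mono fun x hx hxs => hne ⟨x, hx.mp hxs⟩)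

theorem loc_count [BaireSpace X] [Nonempty X] [MeasurableSpace X] [BorelSpace X] {ι : Type*}
    [Countable ι] {A : ι → Set X} (hA : ∀ i, MeasurableSet (A i))
    (h : ∀ᶠ x in residual X, ∃ i, x ∈ A i) :
    ∃ (i : ι) (U : Set X), IsOpen U ∧ U.Nonempty ∧ ∀ᶠ x in residual X, x ∈ U → x ∈ A i := by
  have : ∃ i, ¬ ∀ᶠ x in residual X, x ∉ A i := by
    by_contra hn
    have hn' : ∀ i, ∀ᶠ x in residual X, x ∉ A i := fun i => not_not.mp fun h => hn ⟨i, h⟩
    obtain ⟨x, -, ⟨i, hi⟩, hx⟩ := ev_exists (h.and (eventually_countable_forall.mpr hn'))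
      isOpen_univ Set.univ_nonempty
    exact hx i hi
  obtain ⟨i, hi⟩ := this
  exact ⟨i, loc (hA i) hi⟩

/-- converse of Kuratowski–Ulam for Borel sets (`loc` for the complement, a box inside the open
set, `ku`, `ev_exists` twice) -/
theorem ku_rev [BaireSpace X] [BaireSpace Y] [SecondCountableTopology X] [SecondCountableTopology Y]
    [MeasurableSpace X] [BorelSpace X] [MeasurableSpace Y] [BorelSpace Y] {s : Set (X × Y)}
    (hs : MeasurableSet s) (h : ∀ᶠ x in residual X, ∀ᶠ y in residual Y, (x, y) ∈ s) :
    ∀ᶠ p in residual (X × Y), p ∈ s := by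
  by_contra hn
  obtain ⟨W, hW, ⟨⟨a, b⟩, hab⟩, hWs⟩ :=
    loc hs.compl fun h' => hn (h'.mono fun p hp => not_not.mp hp)
  obtain ⟨U, V, hU, hV, ha, hb, hUV⟩ := isOpen_prod_iff.mp hW a b hab
  obtain ⟨x, hx, h1, h2⟩ := ev_exists (h.and (ku hWs)) hU ⟨a, ha⟩
  obtain ⟨y, hy, h3, h4⟩ := ev_exists (h1.and h2) hV ⟨b, hb⟩
  exact h4 (hUV (Set.mk_mem_prod hx hy)) h3

/-- pull-back along a continuous open map (`tendsto_residual_of_isOpenMap`) -/
theorem ev_comp {φ : X → Y} (hc : Continuous φ) (ho : IsOpenMap φ) {P : Y → Prop}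
    (h : ∀ᶠ y in residual Y, P y) : ∀ᶠ x in residual X, P (φ x) :=
  (tendsto_residual_of_isOpenMap hc ho).eventually h

/-- push-forward along a continuous open surjection, for Borel sets (`loc`, `ev_comp`, `ev_exists`) -/
theorem ev_of_comp [BaireSpace X] [MeasurableSpace Y] [BorelSpace Y] {φ : X → Y}
    (hc : Continuous φ) (ho : IsOpenMap φ) (hs : Function.Surjective φ) {s : Set Y}
    (hm : MeasurableSet s) (h : ∀ᶠ x in residual X, φ x ∈ s) : ∀ᶠ y in residual Y, y ∈ s := by
  by_contra hn
  obtain ⟨W, hW, hWn, hWs⟩ := loc hm.compl fun h' => hn (h'.mono fun p hp => not_not.mp hp)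
  obtain ⟨x, hx, h1, h2⟩ := ev_exists (h.and (ev_comp hc ho hWs)) (hW.preimage hc)
    (hWn.preimage hs)
  exact h2 hx h1

end general

theorem isOpen_cyl0 (k : ℕ) (a : R) : IsOpen {x : R | ∀ n < k, x n = a n} := by
  have : {x : R | ∀ n < k, x n = a n} = ⋂ n ∈ Finset.range k, (fun x : R => x n) ⁻¹' {a n} := by
    ext x
    simp
  rw [this]
  exact isOpen_biInter_finset fun n _ => (isOpen_discrete _).preimage (continuous_apply n)

theorem spl_cont (k : ℕ) (a : R) : Continuous (spl k a) := by
  refine continuous_pi fun n => ?_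
  unfold spl
  split_ifs
  · exact continuous_const
  · exact continuous_apply _

/-- the image of a neighbourhood of `x` contains all `y` agreeing with `spl k a x` far enough
(`y = spl k a (fun n => y (n + k))`) -/
theorem spl_open (k : ℕ) (a : R) : IsOpenMap (spl k a) := by
  intro U hU
  have h1 : spl k a '' U =
      {y : R | ∀ n < k, y n = a n} ∩ (fun (y : R) (n : ℕ) => y (n + k)) ⁻¹' U := by
    ext y
    constructor
    · rintro ⟨x, hx, rfl⟩
      refine ⟨fun n hn => if_pos hn, ?_⟩
      have : (fun n => spl k a x (n + k)) = x := by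
        funext n
        simp [spl]
      rwa [Set.mem_preimage, this]
    · rintro ⟨h1, h2⟩
      refine ⟨_, h2, ?_⟩
      funext n
      unfold spl
      split_ifs with h
      · exact (h1 n h).symm
      · exact congrArg y (by omega)
  rw [h1]
  exact (isOpen_cyl0 k a).inter (hU.preimage (continuous_pi fun n => continuous_apply _))

/-- an open set contains all points agreeing with a given point far enough -/
theorem cyl {U : Set R} (hU : IsOpen U) {a : R} (ha : a ∈ U) :
    ∃ k, ∀ x : R, (∀ n < k, x n = a n) → x ∈ U := by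
  obtain ⟨I, u, h1, h2⟩ := isOpen_pi_iff.mp hU a ha
  refine ⟨I.sup id + 1, fun x hx => h2 fun i hi => ?_⟩
  rw [hx i (Nat.lt_succ_of_le (Finset.le_sup (f := id) hi))]
  exact (h1 i hi).2

theorem cyl2 {U : Set (R × R)} (hU : IsOpen U) {a b : R} (ha : (a, b) ∈ U) :
    ∃ k, ∀ x y : R, (∀ n < k, x n = a n) → (∀ n < k, y n = b n) → (x, y) ∈ U := by
  obtain ⟨V, W, hV, hW, h1, h2, h3⟩ := isOpen_prod_iff.mp hU a b ha
  obtain ⟨k, hk⟩ := cyl hV h1
  obtain ⟨l, hl⟩ := cyl hW h2
  exact ⟨max k l, fun x y hx hy => h3 (Set.mk_mem_prod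
    (hk x fun n hn => hx n (lt_max_of_lt_left hn)) (hl y fun n hn => hy n (lt_max_of_lt_right hn)))⟩

theorem cylT {U : Set T} (hU : IsOpen U) {a : T} (ha : a ∈ U) :
    ∃ k, ∀ x : T, (∀ i < k, ∀ n < k, x i n = a i n) → x ∈ U := by
  obtain ⟨I, u, h1, h2⟩ := isOpen_pi_iff.mp hU a ha
  choose! K hK using fun i (hi : i ∈ I) => cyl (h1 i hi).1 (h1 i hi).2
  refine ⟨I.sup fun i => max (i + 1) (K i), fun x hx => h2 fun i hi => ?_⟩
  have h3 := Finset.le_sup (f := fun i => max (i + 1) (K i)) hi
  exact hK i hi _ fun n hn => hx i (lt_of_lt_of_le (lt_max_of_lt_left (Nat.lt_succ_self i)) h3) n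
    (lt_of_lt_of_le (lt_max_of_lt_right hn) h3)

theorem isOpen_cyl (k : ℕ) (a : R) : IsOpen {x : R | ∀ n < k, x n = a n} := by
  exact isOpen_cyl0 k a

theorem xr_cont : Continuous fun p : R × R => xr p.1 p.2 := by
  refine continuous_pi fun n => ?_
  have h1 : Continuous fun q : Bool × Bool => xor q.1 q.2 := continuous_of_discreteTopology
  have h2 : Continuous fun p : R × R => (p.1 n, p.2 n) :=
    ((continuous_apply n).comp continuous_fst).prodMk ((continuous_apply n).comp continuous_snd)
  exact h1.comp h2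

/-- `(x,y) ↦ (xr x y, y)` is an involutive homeomorphism, `Prod.fst` is open -/
theorem xr_open : IsOpenMap fun p : R × R => xr p.1 p.2 := by
  refine IsOpenMap.of_sections fun p => ⟨fun z => (xr z p.2, p.2), ?_, ?_, fun z => ?_⟩
  · exact ((xr_cont.comp (continuous_id.prodMk continuous_const)).prodMk
      continuous_const).continuousAt
  · refine Prod.ext (funext fun n => ?_) rfl
    simp [xr]
  · funext n
    simp [xr]

theorem xr_const_cont (d : R) : Continuous fun x : R => xr x d := by
  exact xr_cont.comp (continuous_id.prodMk continuous_const)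

theorem xr_const_open (d : R) : IsOpenMap fun x : R => xr x d := by
  have h : ∀ x, xr (xr x d) d = x := fun x => funext fun n => by simp [xr]
  exact IsOpenMap.of_inverse (xr_const_cont d) h h

/-- `p ↦ (even part, odd part)` is a homeomorphism with inverse `jn` -/
theorem ev_jn {P : R × R → Prop} (h : ∀ᶠ p in residual (R × R), P p) :
    ∀ᶠ p in residual R, ∃ z v, p = jn z v ∧ P (z, v) := by
  have h1 : ∀ p : R, jn (fun n => p (2 * n)) (fun n => p (2 * n + 1)) = p := by
    intro p
    funext n
    unfold jn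
    split_ifs with hn <;> exact congrArg p (by omega)
  have h2 : Continuous fun q : R × R => jn q.1 q.2 := by
    refine continuous_pi fun n => ?_
    unfold jn
    split_ifs
    · exact (continuous_apply _).comp continuous_fst
    · exact (continuous_apply _).comp continuous_snd
  have h3 : Continuous fun p : R => ((fun n => p (2 * n), fun n => p (2 * n + 1)) : R × R) :=
    (continuous_pi fun n => continuous_apply _).prodMk (continuous_pi fun n => continuous_apply _)
  have h4 : IsOpenMap fun p : R => ((fun n => p (2 * n), fun n => p (2 * n + 1)) : R × R) := by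
    refine IsOpenMap.of_inverse h2 (fun q => Prod.ext (funext fun n => ?_) (funext fun n => ?_)) h1
    · have : 2 * n % 2 = 0 := by omega
      simp only [jn, if_pos this]
      exact congrArg q.1 (by omega)
    · have : ¬ (2 * n + 1) % 2 = 0 := by omega
      simp only [jn, if_neg this]
      exact congrArg q.2 (by omega)
  exact (ev_comp h3 h4 h).mono fun p hp => ⟨_, _, (h1 p).symm, hp⟩

theorem flat_cont : Continuous flat := by
  exact continuous_pi fun n => (continuous_apply _).comp (continuous_apply _)

/-- `flat` is a homeomorphism `T ≃ₜ R` -/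
theorem flat_open : IsOpenMap flat := by
  refine IsOpenMap.of_inverse (f' := fun (x : R) (i n : ℕ) => x (Nat.pair i n))
    (continuous_pi fun i => continuous_pi fun n => continuous_apply _) (fun x => ?_) fun Z => ?_
  · funext n
    simp [flat]
  · funext i n
    simp [flat]

theorem upd_cont (i : ℕ) : Continuous fun p : R × T => Function.update p.2 i p.1 := by
  exact continuous_snd.update i continuous_fst

/-- it has the continuous local sections `Z ↦ (Z i, update Z i c)` -/
theorem upd_open (i : ℕ) : IsOpenMap fun p : R × T => Function.update p.2 i p.1 := by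
  refine IsOpenMap.of_sections fun p =>
    ⟨fun W => (W i, Function.update W i (p.2 i)), ?_, ?_, fun W => ?_⟩
  · exact ((continuous_apply i).prodMk (continuous_id.update i continuous_const)).continuousAt
  · simp
  · simp

/-- A comeagre set contains a dense `Gδ` set, which is Borel and uncountable (countable sets are
meagre in `R`); refine the topology (`MeasurableSet.isClopenable`), use
`IsClosed.exists_nat_bool_injection_of_not_countable`; `Measurable.measurableEmbedding` and
`MeasurableEmbedding.invFun` give the Borel left inverse. -/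
theorem perf {P : R → Prop} (h : ∀ᶠ x in residual R, P x) :
    ∃ j k : R → R, Continuous j ∧ Measurable k ∧ (∀ x, P (j x)) ∧ ∀ x, k (j x) = x := by
  obtain ⟨t, hts, htG, htd⟩ := mem_residual.mp h
  have hunc : ¬ t.Countable := by
    intro hc
    have h1 : ∀ a ∈ t, ∀ᶠ x in residual R, x ≠ a := by
      intro a _
      refine residual_of_dense_open isOpen_compl_singleton ?_
      refine dense_compl_singleton_iff_not_open.mpr fun ho => ?_
      obtain ⟨k, hk⟩ := cyl ho (Set.mem_singleton a)
      have h2 := hk (Function.update a k (!a k)) fun n hn => Function.update_of_ne hn.ne _ _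
      have h3 := congrFun h2 k
      simp at h3
    obtain ⟨x, -, hx, hx'⟩ := ev_exists
      (Eventually.and (residual_of_dense_Gδ htG htd) ((eventually_countable_ball hc).mpr h1))
      isOpen_univ Set.univ_nonempty
    exact hx' x hx rfl
  have : PolishSpace R := {}
  have key : ∃ j : R → R, Set.range j ⊆ t ∧ Continuous j ∧ Function.Injective j :=
    Exists.elim htG.measurableSet.isClopenable fun t' ht =>
      (@IsClosed.exists_nat_bool_injection_of_not_countable R t' ht.2.1 t ht.2.2.1 hunc).imp
        fun _ hj => ⟨hj.1, continuous_le_rng ht.1 hj.2.1, hj.2.2⟩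
  obtain ⟨j, hj1, hj, hj3⟩ := key
  have he := hj.measurableEmbedding hj3
  exact ⟨j, he.invFun, hj, he.measurable_invFun, fun x => hts (hj1 ⟨x, rfl⟩),
    he.leftInverse_invFun⟩

end Crest.Agent.R292
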