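import Mathlib

/-!
# Row 292 (rigidity of the Turing degrees): definitions

Reals are `R = ℕ → Bool`.  `Cm ψ x f`: the primitive recursive approximation `ψ` (fed with prefixes
of the oracle `x`) computes the total function `f`.  `UC X f` is the uniform version over a family,
`Red y x` is Turing reducibility `y ≤ x`.
-/

set_option autoImplicit false

open Filter Topology

namespace Crest.Agent.R292

abbrev R := ℕ → Bool
abbrev T := ℕ → R

/-- the first `s` bits -/
def pre (x : R) (s : ℕ) : List Bool := (List.range s).map x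

def Cm {α β : Type} (ψ : List Bool → α → Option β) (x : R) (f : α → β) : Prop :=
  ∀ a, (∀ s v, ψ (pre x s) a = some v → v = f a) ∧ ∃ N, ∀ s, N ≤ s → ψ (pre x s) a = some (f a)

/-- `f i` is computable from the oracle `X i`, uniformly in `i` -/
def UC {ι α β : Type} [Primcodable α] [Primcodable β] (X : ι → R) (f : ι → α → β) : Prop :=
  ∃ ψ : List Bool → α → Option β, Primrec₂ ψ ∧ ∀ i, Cm ψ (X i) (f i)

/-- `y ≤_T x` -/
def Red (y x : R) : Prop := ∃ ψ : List Bool → ℕ → Option Bool, Primrec₂ ψ ∧ Cm ψ x y

def Eqv (x y : R) : Prop := Red x y ∧ Red y x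

/-- join -/
def jn (x y : R) : R := fun n => if n % 2 = 0 then x (n / 2) else y (n / 2)

/-- pointwise xor -/
def xr (x y : R) : R := fun n => xor (x n) (y n)

/-- the first `k` bits of `a` followed by `x` -/
def spl (k : ℕ) (a x : R) : R := fun n => if n < k then a n else x (n - k)

/-- countable join -/
def flat (Z : T) : R := fun n => Z n.unpair.1 n.unpair.2

/-- lifts of an automorphism and of its inverse -/
structure Aut (f g : R → R) : Prop where
  f_iff : ∀ x y, Red (f x) (f y) ↔ Red x y
  g_iff : ∀ x y, Red (g x) (g y) ↔ Red x y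
  gf : ∀ x, Eqv (g (f x)) x
  fg : ∀ x, Eqv (f (g x)) x

theorem Aut.symm {f g : R → R} (h : Aut f g) : Aut g f := ⟨h.g_iff, h.f_iff, h.fg, h.gf⟩

/-- `F` is a Borel function representing `f` on a comeagre set -/
def Rep (f F : R → R) : Prop := Measurable F ∧ ∀ᶠ x in residual R, Eqv (F x) (f x)

theorem pre_length (x : R) (s : ℕ) : (pre x s).length = s := by simp [pre]

theorem pre_succ (x : R) (s : ℕ) : pre x (s + 1) = pre x s ++ [x s] := by
  simp [pre, List.range_succ]

theorem pre_getElem? (x : R) (s n : ℕ) : (pre x s)[n]? = if n < s then some (x n) else none := by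
  unfold pre
  split_ifs with h
  · simp [h]
  · simp [h]

theorem pre_congr {x y : R} {s : ℕ} (h : ∀ n < s, x n = y n) : pre x s = pre y s :=
  List.map_congr_left fun n hn => h n (List.mem_range.1 hn)

end Crest.Agent.R292
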