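import Crest.Agent.R292.Cat

/-! # R292 DIAG: the diagonal argument (task 292-DIAG) -/

set_option autoImplicit false

open Filter Topology

namespace Crest.Agent.R292

namespace DiagAux

/-- `(x, Z 0, Z 1, …)` -/
def cons (x : R) (Z : T) : T := fun i => Nat.casesOn i x Z

/-- `cons` as a homeomorphism -/
def consH : R × T ≃ₜ T where
  toFun p := cons p.1 p.2
  invFun Z := (Z 0, fun i => Z (i + 1))
  left_inv _ := rfl
  right_inv Z := by
    funext i
    cases i <;> rfl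
  continuous_toFun := continuous_pi fun i => by
    cases i with
    | zero => exact continuous_fst
    | succ i => exact (continuous_apply i).comp continuous_snd
  continuous_invFun :=
    (continuous_apply 0).prodMk (continuous_pi fun i => continuous_apply (i + 1))

/-- reordering -/
def reo : T × (R × T) ≃ₜ R × (T × T) where
  toFun q := (q.2.1, (q.1, q.2.2))
  invFun p := (p.2.1, (p.1, p.2.2))
  left_inv _ := rfl
  right_inv _ := rfl
  continuous_toFun := by fun_prop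
  continuous_invFun := by fun_prop

theorem cons_cont : Continuous fun p : R × T => cons p.1 p.2 := consH.continuous

theorem cons_cont' (x : R) : Continuous (cons x) :=
  cons_cont.comp (continuous_const.prodMk continuous_id)

/-- cylinders -/
def cy (k : ℕ) (a : T) : Set T := {Z | ∀ i < k, ∀ n < k, Z i n = a i n}

theorem isOpen_cy (k : ℕ) (a : T) : IsOpen (cy k a) := by
  have : cy k a = ⋂ i ∈ Finset.range k, (fun Z : T => Z i) ⁻¹' {x : R | ∀ n < k, x n = a i n} := by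
    ext Z
    simp [cy]
  rw [this]
  exact isOpen_biInter_finset fun i _ => (isOpen_cyl k (a i)).preimage (continuous_apply i)

theorem exists_seq {P : T → Prop} (h : ∀ᶠ Z in residual T, P Z) :
    ∃ O : ℕ → Set T, (∀ j, IsOpen (O j) ∧ Dense (O j)) ∧ ∀ Z, (∀ j, Z ∈ O j) → P Z := by
  obtain ⟨S, h1, h2, h3, h4⟩ := mem_residual_iff.mp h
  obtain ⟨O, hO⟩ := (h3.insert Set.univ).exists_eq_range (Set.insert_nonempty _ _)
  refine ⟨O, fun j => ?_, fun Z hZ => h4 fun t ht => ?_⟩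
  · have : O j ∈ insert Set.univ S := hO ▸ Set.mem_range_self j
    rcases this with h | h
    · rw [h]
      exact ⟨isOpen_univ, dense_univ⟩
    · exact ⟨h1 _ h, h2 _ h⟩
  · have : t ∈ Set.range O := hO ▸ Set.mem_insert_of_mem _ ht
    obtain ⟨j, rfl⟩ := this
    exact hZ j

/-- states of the construction -/
structure St where
  Ψ : ℕ → T → R
  O : ℕ → Set T
  k : ℕ
  a : T
  hΨ : ∀ e, Measurable (Ψ e)
  hO : ∀ j, IsOpen (O j) ∧ Dense (O j)

theorem pick {f : R → R} {E : R → R → Prop} (hE : Equivalence E)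
    (hEm : MeasurableSet {p : R × R | E p.1 p.2}) {Φ : R × T → R} (hΦ : Measurable Φ)
    {U : Set R} {V : Set T} (hU : IsOpen U) (hV : IsOpen V) (hVn : V.Nonempty)
    (h : ∀ᶠ x in residual R, x ∈ U → ∀ᶠ Z in residual T, Z ∈ V → E (Φ (x, Z)) (f x)) :
    ∃ Z₀, ∀ᶠ x in residual R, x ∈ U → E (Φ (x, Z₀)) (f x) := by
  let S : Set (R × (T × T)) :=
    {p | p.1 ∈ U → p.2.1 ∈ V → p.2.2 ∈ V → E (Φ (p.1, p.2.1)) (Φ (p.1, p.2.2))}
  have hS : MeasurableSet S := by
    have h1 : MeasurableSet {p : R × (T × T) | p.1 ∈ U} := measurable_fst hU.measurableSet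
    have h2 : MeasurableSet {p : R × (T × T) | p.2.1 ∈ V} := measurable_snd.fst hV.measurableSet
    have h3 : MeasurableSet {p : R × (T × T) | p.2.2 ∈ V} := measurable_snd.snd hV.measurableSet
    have h4 : MeasurableSet {p : R × (T × T) | E (Φ (p.1, p.2.1)) (Φ (p.1, p.2.2))} :=
      ((hΦ.comp (measurable_fst.prodMk measurable_snd.fst)).prodMk
        (hΦ.comp (measurable_fst.prodMk measurable_snd.snd))) hEm
    exact h1.imp (h2.imp (h3.imp h4))
  have h1 : ∀ᶠ p in residual (R × (T × T)), p ∈ S := by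
    refine ku_rev hS (h.mono fun x hx => ?_)
    by_cases hxU : x ∈ U
    · filter_upwards [ev_comp continuous_fst isOpenMap_fst (hx hxU),
        ev_comp continuous_snd isOpenMap_snd (hx hxU)] with y h1 h2 _ h3 h4
      exact hE.trans (h1 h3) (hE.symm (h2 h4))
    · exact Eventually.of_forall fun y h => absurd h hxU
  obtain ⟨Z₀, hZ₀, h2⟩ := ev_exists (ku (ev_comp reo.continuous reo.isOpenMap h1)) hV hVn
  refine ⟨Z₀, ?_⟩
  filter_upwards [ku h2, h] with x h3 h4 hxU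
  obtain ⟨Z, hZ, h5, h6⟩ := ev_exists (h3.and (h4 hxU)) hV hVn
  exact hE.trans (h5 hxU hZ₀ hZ) (h6 hZ)

theorem step {f : R → R} {E : R → R → Prop} (hE : Equivalence E)
    (hEm : MeasurableSet {p : R × R | E p.1 p.2})
    (hno : ∀ (F : R → R) (U : Set R), Measurable F → IsOpen U → U.Nonempty →
      ¬ ∀ᶠ x in residual R, x ∈ U → E (F x) (f x)) (s : St) :
    ∃ (x : R) (s' : St), (∀ e Z, s'.Ψ e Z = s.Ψ (e + 1) (cons x Z)) ∧
      (∀ Z ∈ cy s'.k s'.a, cons x Z ∈ cy s.k s.a ∧ cons x Z ∈ s.O 0) ∧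
      (∀ j, ∀ Z ∈ s'.O j, cons x Z ∈ s.O (j + 1)) ∧
      ∀ Z ∈ cy s'.k s'.a, (∀ j, Z ∈ s'.O j) → ¬ E (s.Ψ 0 (cons x Z)) (f x) := by
  obtain ⟨b, hb⟩ := (s.hO 0).2.inter_open_nonempty _ (isOpen_cy s.k s.a)
    ⟨s.a, fun _ _ _ _ => rfl⟩
  obtain ⟨⟨b₁, b₂⟩, rfl⟩ := consH.surjective b
  obtain ⟨U, V, hU, hV, hbU, hbV, hUV⟩ := isOpen_prod_iff.mp
    (((isOpen_cy s.k s.a).inter (s.hO 0).1).preimage cons_cont) b₁ b₂ hb
  have hA : ∀ᶠ x in residual R, ∀ j, Dense (cons x ⁻¹' s.O (j + 1)) := by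
    rw [eventually_countable_forall]
    intro j
    have h1 : ∀ᶠ Z in residual T, Z ∈ s.O (j + 1) :=
      residual_of_dense_open (s.hO _).1 (s.hO _).2
    exact (ku (ev_comp consH.continuous consH.isOpenMap h1)).mono fun x hx =>
      dense_of_mem_residual hx
  have hΦ : Measurable fun p : R × T => s.Ψ 0 (cons p.1 p.2) := (s.hΨ 0).comp cons_cont.measurable
  have hx : ∃ x ∈ U, (∀ j, Dense (cons x ⁻¹' s.O (j + 1))) ∧
      ¬ ∀ᶠ Z in residual T, Z ∈ V → E (s.Ψ 0 (cons x Z)) (f x) := by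
    by_contra hn
    push Not at hn
    obtain ⟨Z₀, hZ₀⟩ := pick (f := f) hE hEm hΦ hU hV ⟨b₂, hbV⟩
      (hA.mono fun x hx hxU => hn x hxU hx)
    exact hno _ U (hΦ.comp (measurable_id.prodMk measurable_const)) hU ⟨b₁, hbU⟩ hZ₀
  obtain ⟨x, hxU, hxD, hxn⟩ := hx
  have hm : MeasurableSet {Z : T | Z ∈ V ∧ ¬ E (s.Ψ 0 (cons x Z)) (f x)} :=
    hV.measurableSet.inter ((((s.hΨ 0).comp (cons_cont' x).measurable).prodMk
      measurable_const) hEm).compl
  obtain ⟨W, hW, hWn, hWs⟩ := loc hm fun h => hxn (h.mono fun Z hZ hZV => by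
    by_contra h'
    exact hZ ⟨hZV, h'⟩)
  obtain ⟨a, haW, ha⟩ := ev_exists hWs hW hWn
  obtain ⟨k, hk⟩ := cylT (hW.inter hV) ⟨haW, (ha haW).1⟩
  obtain ⟨P, hP, hPs⟩ := exists_seq hWs
  refine ⟨x, ⟨fun e Z => s.Ψ (e + 1) (cons x Z), fun j => cons x ⁻¹' s.O (j + 1) ∩ P j, k, a,
    fun e => (s.hΨ _).comp (cons_cont' x).measurable, fun j =>
      ⟨((s.hO _).1.preimage (cons_cont' x)).inter (hP j).1,
        (hxD j).inter_of_isOpen_right (hP j).2 (hP j).1⟩⟩, fun _ _ => rfl,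
    fun Z hZ => hUV (Set.mk_mem_prod hxU (hk Z hZ).2), fun j Z hZ => hZ.1, fun Z hZ hj => ?_⟩
  exact (hPs Z (fun j => (hj j).2) (hk Z hZ).1).2

end DiagAux

open DiagAux

/-- Suppose not.  `cons x Z : T` (`Nat.casesOn`), `(x, Z) ↦ cons x Z` is a homeomorphism `R × T ≃ₜ T`.
A *state* is `(Ψ, O, B)`: `Ψ : ℕ → T → R` measurable, `O : ℕ → Set T` open dense, `B ⊆ T` clopen
nonempty (start: `O` from `mem_residual_iff`/`Set.Countable.exists_eq_range` for `h`, `B = univ`).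
*Step*: take open nonempty `U ⊆ R`, `V ⊆ T` with `cons (U × V) ⊆ B ∩ O 0`; by `ku` for comeagre many
`x` all `cons x ⁻¹' O (k+1)` are dense.  There is such an `x ∈ U` for which NOT
`∀ᶠ Z, Z ∈ V → E (Ψ 0 (cons x Z)) (f x)`: otherwise the Borel set
`{(x, (Z, Z')) | x ∈ U → Z ∈ V → Z' ∈ V → E (Ψ 0 (cons x Z)) (Ψ 0 (cons x Z'))}` is comeagre
(`ku_rev`, `ev_comp` for `fst`, `snd`), so (reorder by a homeomorphism, `ku` twice, `ev_exists`) some
`Z₀ ∈ V` makes `F x = Ψ 0 (cons x Z₀)` work on `U`.  By `loc` the Borel set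
`{Z ∈ V | ¬ E (Ψ 0 (cons x Z)) (f x)}` contains `B' ∩ ⋂ P k`, `B'` clopen nonempty (`cylT`), `P k` open
dense.  New state: `Ψ' e Z = Ψ (e+1) (cons x Z)`, `O' k = cons x ⁻¹' O (k+1) ∩ P k`, `B'`.
Iterate: `Z = (x₀, x₁, …)`; the tails `Z_e = fun i => x (e + i)` lie in `B_e` (closed; limit of
`cons x_e (… (cons x_{e+n} b))`, or take `B` of the form `{Z | ∀ i < k, ∀ n < k, Z i n = a i n}`) and in
`O_e k` (induction on `k`, all `e`), so `Z` satisfies `h`, but `Ψ e Z = Ψ_e 0 Z_e` contradicts the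
choice of `P` at stage `e`. -/
theorem diag (f : R → R) (E : R → R → Prop) (hE : Equivalence E)
    (hEm : MeasurableSet {p : R × R | E p.1 p.2}) (Ψ : ℕ → T → R) (hΨ : ∀ e, Measurable (Ψ e))
    (h : ∀ᶠ Z in residual T, ∃ e, E (Ψ e Z) (f (Z e))) :
    ∃ (F : R → R) (U : Set R), Measurable F ∧ IsOpen U ∧ U.Nonempty ∧
      ∀ᶠ x in residual R, x ∈ U → E (F x) (f x) := by
  by_contra hn
  have hno : ∀ (F : R → R) (U : Set R), Measurable F → IsOpen U → U.Nonempty →
      ¬ ∀ᶠ x in residual R, x ∈ U → E (F x) (f x) :=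
    fun F U h1 h2 h3 h4 => hn ⟨F, U, h1, h2, h3, h4⟩
  choose nx ns h1 h2 h3 h4 using step hE hEm hno
  obtain ⟨O, hO, hOs⟩ := exists_seq h
  let s : ℕ → St := fun e => ns^[e] ⟨Ψ, O, 0, fun _ _ => false, hΨ, hO⟩
  have hs : ∀ e, s (e + 1) = ns (s e) := fun e => Function.iterate_succ_apply' _ _ _
  let x : ℕ → R := fun e => nx (s e)
  let Z : ℕ → T := fun e i => x (e + i)
  have hZ : ∀ e, Z e = cons (x e) (Z (e + 1)) := by
    intro e
    funext i
    cases i with
    | zero => rfl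
    | succ i => exact congrArg x (by omega)
  have hB0 : ∀ m e, ∃ W ∈ cy (s e).k (s e).a, ∀ i < m, W i = x (e + i) := by
    intro m
    induction m with
    | zero => exact fun e => ⟨(s e).a, fun _ _ _ _ => rfl, fun i hi => absurd hi (by omega)⟩
    | succ m ih =>
      intro e
      obtain ⟨W, hW, hW'⟩ := ih (e + 1)
      rw [hs] at hW
      refine ⟨cons (x e) W, (h2 _ W hW).1, fun i hi => ?_⟩
      cases i with
      | zero => rfl
      | succ i => exact (hW' i (by omega)).trans (congrArg x (by omega))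
  have hB : ∀ e, Z (e + 1) ∈ cy (ns (s e)).k (ns (s e)).a := by
    intro e i hi n hn
    rw [← hs] at hi hn ⊢
    obtain ⟨W, hW, hW'⟩ := hB0 (s (e + 1)).k (e + 1)
    rw [← hW i hi n hn, hW' i hi]
  have hOk : ∀ j e, Z e ∈ (s e).O j := by
    intro j
    induction j with
    | zero =>
      intro e
      rw [hZ]
      exact (h2 _ _ (hB e)).2
    | succ j ih =>
      intro e
      rw [hZ]
      exact h3 _ j _ (hs e ▸ ih (e + 1))
  have hΨe : ∀ e j, (s e).Ψ j (Z e) = Ψ (e + j) (Z 0) := by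
    intro e
    induction e with
    | zero =>
      intro j
      rw [Nat.zero_add]
      rfl
    | succ e ih =>
      intro j
      rw [hs, h1, ← hZ, ih]
      congr 1
      omega
  obtain ⟨e, he⟩ := hOs (Z 0) fun j => hOk j 0
  refine h4 (s e) (Z (e + 1)) (hB e) (fun j => hs e ▸ hOk j (e + 1)) ?_
  rw [← hZ, hΨe]
  have : Z 0 e = nx (s e) := congrArg x (Nat.zero_add e)
  rw [this] at he
  exact he

end Crest.Agent.R292
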