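import Crest.Agent.R292.Defs
import Crest.Prelude.Def_SetDegree

/-! # R292 LINK: `Red` is Mathlib's Turing reducibility (task 292-LINK) -/

set_option autoImplicit false

open Crest.LogicCS.Degrees

namespace Crest.Agent.R292

namespace LinkA

/-- approximability of a partial function from prefixes of the oracle -/
def Ap (x : R) (f : ℕ →. ℕ) : Prop :=
  ∃ ψ : List Bool → ℕ → Option ℕ, Primrec₂ ψ ∧ ∀ a, (∀ s v, ψ (pre x s) a = some v → v ∈ f a) ∧
    ∀ v ∈ f a, ∃ N, ∀ s, N ≤ s → ψ (pre x s) a = some v

theorem ap_prim (x : R) {g : ℕ → ℕ} (hg : Primrec g) : Ap x (fun n => Part.some (g n)) :=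
  ⟨fun _ a => some (g a), Primrec.option_some.comp (hg.comp Primrec.snd), fun a =>
    ⟨fun _ v h => by cases h; exact Part.mem_some _,
      fun v hv => ⟨0, fun _ _ => by rw [Part.mem_some_iff.1 hv]⟩⟩⟩

theorem charFun_eq (x : R) (n : ℕ) :
    charFun {n | x n = true} n = Part.some (cond (x n) 1 0) := by
  unfold charFun
  congr 1
  cases h : x n
  · rw [Set.indicator_of_notMem (by simp [h])]; rfl
  · rw [Set.indicator_of_mem (by simp [h])]; rfl

/-- state of the bounded search -/
def sr (ψ : List Bool → ℕ → Option ℕ) (l : List Bool) (a k : ℕ) : Option (Option ℕ) :=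
  Nat.rec (some none) (fun k st => st.bind fun o => Option.casesOn o
    ((ψ l (Nat.pair a k)).map fun v => if v = 0 then some k else none) fun m => some (some m)) k

theorem sr_succ (ψ : List Bool → ℕ → Option ℕ) (l : List Bool) (a k : ℕ) :
    sr ψ l a (k + 1) = (sr ψ l a k).bind fun o => Option.casesOn o
      ((ψ l (Nat.pair a k)).map fun v => if v = 0 then some k else none) fun m => some (some m) :=
  rfl

theorem sr_prim {ψ : List Bool → ℕ → Option ℕ} (h : Primrec₂ ψ) :
    Primrec₂ fun (l : List Bool) (a : ℕ) => (sr ψ l a l.length).bind id := by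
  refine Primrec.option_bind ?_ Primrec.snd.to₂
  refine Primrec.nat_rec' (f := fun p : List Bool × ℕ => p.1.length)
    (g := fun _ => (some none : Option (Option ℕ)))
    (h := fun p (q : ℕ × Option (Option ℕ)) => q.2.bind fun o => Option.casesOn o
      ((ψ p.1 (Nat.pair p.2 q.1)).map fun v => if v = 0 then some q.1 else none)
      fun m => some (some m))
    (Primrec.list_length.comp Primrec.fst) (Primrec.const _) ?_
  refine Primrec.option_bind (Primrec.snd.comp Primrec.snd) ?_
  refine Primrec.option_casesOn Primrec.snd ?_ ?_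
  · refine Primrec.option_map (h.comp (Primrec.fst.comp (Primrec.fst.comp Primrec.fst))
      (Primrec₂.natPair.comp (Primrec.snd.comp (Primrec.fst.comp Primrec.fst))
        (Primrec.fst.comp (Primrec.snd.comp Primrec.fst)))) ?_
    exact Primrec.ite (Primrec.eq.comp Primrec.snd (Primrec.const 0))
      (Primrec.option_some.comp
        (Primrec.fst.comp (Primrec.snd.comp (Primrec.fst.comp Primrec.fst))))
      (Primrec.const none)
  · exact Primrec.option_some.comp (Primrec.option_some.comp Primrec.snd)

theorem ap_of_rec (x : R) {f : ℕ →. ℕ} (hf : Nat.RecursiveIn {charFun {n | x n = true}} f) :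
    Ap x f := by
  induction hf with
  | zero => exact ap_prim x (Primrec.const 0)
  | succ => exact ap_prim x Primrec.succ
  | left => exact ap_prim x (Primrec.fst.comp Primrec.unpair)
  | right => exact ap_prim x (Primrec.snd.comp Primrec.unpair)
  | oracle g hg =>
    obtain rfl : g = _ := hg
    refine ⟨fun l a => (l[a]?).map fun b => cond b 1 0,
      Primrec.option_map Primrec.list_getElem?
        (Primrec.cond Primrec.snd (Primrec.const 1) (Primrec.const 0)), fun a => ⟨?_, ?_⟩⟩
    · intro s v h
      simp only [pre_getElem?] at h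
      split_ifs at h
      · rw [charFun_eq]
        cases h
        exact Part.mem_some _
      · cases h
    · intro v hv
      rw [charFun_eq, Part.mem_some_iff] at hv
      refine ⟨a + 1, fun s hs => ?_⟩
      simp only [pre_getElem?]
      rw [if_pos (by omega), hv]
      rfl
  | pair _ _ ih1 ih2 =>
    obtain ⟨ψ, h1, H1⟩ := ih1
    obtain ⟨φ, h2, H2⟩ := ih2
    refine ⟨fun l a => (ψ l a).bind fun u => (φ l a).map fun v => Nat.pair u v,
      Primrec.option_bind h1 (Primrec.option_map (h2.comp (Primrec.fst.comp Primrec.fst)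
        (Primrec.snd.comp Primrec.fst))
        (Primrec₂.natPair.comp (Primrec.snd.comp Primrec.fst) Primrec.snd)), fun a => ⟨?_, ?_⟩⟩
    · intro s v h
      simp only [Option.bind_eq_some_iff, Option.map_eq_some_iff] at h
      obtain ⟨u, hu, w, hw, rfl⟩ := h
      simp only [Seq.seq, Part.map_eq_map, Part.mem_bind_iff, Part.mem_map_iff]
      exact ⟨_, ⟨u, (H1 a).1 s u hu, rfl⟩, w, (H2 a).1 s w hw, rfl⟩
    · intro v hv
      simp only [Seq.seq, Part.map_eq_map, Part.mem_bind_iff,
        Part.mem_map_iff] at hv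
      obtain ⟨_, ⟨u, hu, rfl⟩, w, hw, rfl⟩ := hv
      obtain ⟨N, hN⟩ := (H1 a).2 u hu
      obtain ⟨N', hN'⟩ := (H2 a).2 w hw
      refine ⟨max N N', fun s hs => ?_⟩
      simp only [hN s (le_of_max_le_left hs), hN' s (le_of_max_le_right hs)]
      rfl
  | comp _ _ ih1 ih2 =>
    obtain ⟨ψ, h1, H1⟩ := ih1
    obtain ⟨φ, h2, H2⟩ := ih2
    refine ⟨fun l a => (φ l a).bind fun u => ψ l u,
      Primrec.option_bind h2 (h1.comp (Primrec.fst.comp Primrec.fst) Primrec.snd),
      fun a => ⟨?_, ?_⟩⟩
    · intro s v h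
      simp only [Option.bind_eq_some_iff] at h
      obtain ⟨u, hu, hv⟩ := h
      exact Part.mem_bind_iff.2 ⟨u, (H2 a).1 s u hu, (H1 u).1 s v hv⟩
    · intro v hv
      obtain ⟨u, hu, hv⟩ := Part.mem_bind_iff.1 hv
      obtain ⟨N, hN⟩ := (H2 a).2 u hu
      obtain ⟨N', hN'⟩ := (H1 u).2 v hv
      refine ⟨max N N', fun s hs => ?_⟩
      simp only [hN s (le_of_max_le_left hs)]
      exact hN' s (le_of_max_le_right hs)
  | @prec f h _ _ ih1 ih2 =>
    obtain ⟨ψ, h1, H1⟩ := ih1
    obtain ⟨φ, h2, H2⟩ := ih2
    let Ψ : List Bool → ℕ → ℕ → Option ℕ := fun l a n =>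
      Nat.rec (ψ l a) (fun y IH => IH.bind fun i => φ l (Nat.pair a (Nat.pair y i))) n
    let F : ℕ → ℕ → Part ℕ := fun a n =>
      Nat.rec (f a) (fun y IH => IH.bind fun i => h (Nat.pair a (Nat.pair y i))) n
    have key : ∀ a n, (∀ s v, Ψ (pre x s) a n = some v → v ∈ F a n) ∧
        ∀ v ∈ F a n, ∃ N, ∀ s, N ≤ s → Ψ (pre x s) a n = some v := by
      intro a n
      induction n with
      | zero => exact H1 a
      | succ n ih =>
        constructor
        · intro s v hv
          obtain ⟨u, hu, hv⟩ := Option.bind_eq_some_iff.1 hv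
          exact Part.mem_bind_iff.2 ⟨u, ih.1 s u hu, (H2 _).1 s v hv⟩
        · intro v hv
          obtain ⟨u, hu, hv⟩ := Part.mem_bind_iff.1 hv
          obtain ⟨N, hN⟩ := ih.2 u hu
          obtain ⟨N', hN'⟩ := (H2 _).2 v hv
          refine ⟨max N N', fun s hs => ?_⟩
          exact Option.bind_eq_some_iff.2
            ⟨u, hN s (le_of_max_le_left hs), hN' s (le_of_max_le_right hs)⟩
    refine ⟨fun l p => Ψ l p.unpair.1 p.unpair.2, ?_, fun p => key p.unpair.1 p.unpair.2⟩
    have ha : Primrec fun p : List Bool × ℕ => p.2.unpair.1 :=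
      Primrec.fst.comp (Primrec.unpair.comp Primrec.snd)
    refine Primrec.nat_rec' (f := fun p : List Bool × ℕ => p.2.unpair.2)
      (g := fun p => ψ p.1 p.2.unpair.1)
      (h := fun p (q : ℕ × Option ℕ) => q.2.bind fun i =>
        φ p.1 (Nat.pair p.2.unpair.1 (Nat.pair q.1 i)))
      (Primrec.snd.comp (Primrec.unpair.comp Primrec.snd)) (h1.comp Primrec.fst ha) ?_
    refine Primrec.option_bind (Primrec.snd.comp Primrec.snd) ?_
    exact h2.comp (Primrec.fst.comp (Primrec.fst.comp Primrec.fst))
      (Primrec₂.natPair.comp (ha.comp (Primrec.fst.comp Primrec.fst))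
        (Primrec₂.natPair.comp (Primrec.fst.comp (Primrec.snd.comp Primrec.fst)) Primrec.snd))
  | @rfind f _ ih =>
    obtain ⟨ψ, h1, H1⟩ := ih
    refine ⟨_, sr_prim h1, fun a => ⟨?_, ?_⟩⟩
    · intro s v hv
      have inv : ∀ k, (sr ψ (pre x s) a k = some none →
            ∀ j < k, ∃ w ∈ f (Nat.pair a j), w ≠ 0) ∧
          ∀ m, sr ψ (pre x s) a k = some (some m) →
            0 ∈ f (Nat.pair a m) ∧ ∀ j < m, ∃ w ∈ f (Nat.pair a j), w ≠ 0 := by
        intro k
        induction k with
        | zero => exact ⟨fun _ j hj => absurd hj (by omega), fun m hm => by cases hm⟩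
        | succ k ihk =>
          rw [sr_succ]
          rcases hk : sr ψ (pre x s) a k with _ | _ | m'
          · exact ⟨fun h => (by cases h), fun m h => (by cases h)⟩
          · have hlt := ihk.1 hk
            simp only [Option.bind_some, Option.map_eq_some_iff]
            constructor
            · rintro ⟨w, hw, hw'⟩ j hj
              split_ifs at hw' with h0
              rcases Nat.lt_succ_iff_lt_or_eq.1 hj with hj | rfl
              · exact hlt j hj
              · exact ⟨w, (H1 _).1 s w hw, h0⟩
            · rintro m ⟨w, hw, hw'⟩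
              split_ifs at hw' with h0
              cases hw'
              exact ⟨h0 ▸ (H1 _).1 s w hw, hlt⟩
          · simp only [Option.bind_some]
            exact ⟨fun h => (by cases h), fun m h => (by cases h; exact ihk.2 _ hk)⟩
      obtain ⟨o, ho, rfl⟩ := Option.bind_eq_some_iff.1 hv
      obtain ⟨h0, hlt⟩ := (inv _).2 v ho
      refine Nat.mem_rfind.2 ⟨?_, fun {j} hj => ?_⟩
      · simp only [Part.map_eq_map, Part.mem_map_iff]
        exact ⟨0, h0, by simp⟩
      · obtain ⟨w, hw, hw0⟩ := hlt j hj
        simp only [Part.map_eq_map, Part.mem_map_iff]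
        exact ⟨w, hw, by simp [hw0]⟩
    · intro m hm
      obtain ⟨h0, hlt⟩ := Nat.mem_rfind.1 hm
      simp only [Part.map_eq_map, Part.mem_map_iff] at h0 hlt
      obtain ⟨w, hw, hw0⟩ := h0
      obtain rfl : w = 0 := by simpa using hw0
      obtain ⟨N, hN⟩ := (H1 _).2 0 hw
      have h2 : ∀ k ≤ m, ∃ N', ∀ s, N' ≤ s → sr ψ (pre x s) a k = some none := by
        intro k hk
        induction k with
        | zero => exact ⟨0, fun _ _ => rfl⟩
        | succ k ihk =>
          obtain ⟨N1, hN1⟩ := ihk (by omega)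
          obtain ⟨u, hu, hu0⟩ := hlt (show k < m by omega)
          have hu0' : u ≠ 0 := by simpa using hu0
          obtain ⟨N2, hN2⟩ := (H1 _).2 u hu
          refine ⟨max N1 N2, fun s hs => ?_⟩
          rw [sr_succ, hN1 s (le_of_max_le_left hs), Option.bind_some]
          simp only [hN2 s (le_of_max_le_right hs), Option.map_some, if_neg hu0']
      obtain ⟨N', hN'⟩ := h2 m le_rfl
      refine ⟨max (max N N') (m + 1), fun s hs => ?_⟩
      have h3 : ∀ k, sr ψ (pre x s) a (m + 1 + k) = some (some m) := by
        intro k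
        induction k with
        | zero =>
          rw [Nat.add_zero, sr_succ, hN' s (by omega), Option.bind_some]
          simp only [hN s (by omega), Option.map_some, if_true]
        | succ k ihk => rw [← Nat.add_assoc, sr_succ, ihk]; rfl
      obtain ⟨k, hk⟩ : ∃ k, s = m + 1 + k := ⟨s - (m + 1), by omega⟩
      show (sr ψ (pre x s) a (pre x s).length).bind id = some m
      rw [pre_length]
      conv_lhs => arg 1; arg 4; rw [hk]
      rw [h3]
      rfl

/-- total functions recursive in `O` -/
def TR (O : Set (ℕ →. ℕ)) (g : ℕ → ℕ) : Prop := Nat.RecursiveIn O fun n => Part.some (g n)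

variable {O : Set (ℕ →. ℕ)}

theorem TR.prim {g : ℕ → ℕ} (hg : Primrec g) : TR O g :=
  Nat.Primrec.recursiveIn (Primrec.nat_iff.1 hg)

theorem TR.comp {g h : ℕ → ℕ} (hg : TR O g) (hh : TR O h) : TR O fun n => g (h n) :=
  (Nat.RecursiveIn.comp hg hh).of_eq fun n => by simp

theorem TR.pair {g h : ℕ → ℕ} (hg : TR O g) (hh : TR O h) : TR O fun n => Nat.pair (g n) (h n) :=
  (Nat.RecursiveIn.pair hg hh).of_eq fun n => by simp [Seq.seq]

theorem TR.prec {h : ℕ → ℕ} (c : ℕ) (hh : TR O h) :
    TR O fun n => Nat.rec c (fun y i => h (Nat.pair y i)) n := by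
  have h1 := Nat.RecursiveIn.prec (TR.prim (O := O) (Primrec.const c))
    (hh.comp (TR.prim (Primrec.snd.comp Primrec.unpair)))
  have h2 := Nat.RecursiveIn.comp h1 (TR.prim (O := O) (g := fun n => Nat.pair 0 n)
    (Primrec₂.natPair.comp (Primrec.const 0) Primrec.id))
  refine h2.of_eq fun n => ?_
  simp only [Part.bind_eq_bind, Part.bind_some, Nat.unpair_pair]
  induction n with
  | zero => rfl
  | succ n ih => simp only [ih, Part.bind_some]

theorem TR.find {g : ℕ → ℕ} (hg : TR O g) (h : ∀ a, ∃ s, g (Nat.pair a s) = 0) :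
    TR O fun a => Nat.find (h a) := by
  refine (Nat.RecursiveIn.rfind hg).of_eq fun a => Part.eq_some_iff.2 ?_
  refine Nat.mem_rfind.2 ⟨?_, fun {j} hj => ?_⟩
  · simpa using Nat.find_spec (h a)
  · simpa using Nat.find_min (h a) hj

theorem tr_pre (x : R) :
    TR {charFun {n | x n = true}} fun s => Encodable.encode (pre x s) := by
  have ho : TR {charFun {n | x n = true}} fun n => cond (x n) 1 0 :=
    (Nat.RecursiveIn.oracle _ (Set.mem_singleton _)).of_eq fun n => charFun_eq x n
  let G : ℕ → ℕ := fun q => Encodable.encode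
    (((Encodable.decode q.unpair.1 : Option (List Bool)).getD []) ++ [decide (q.unpair.2 = 1)])
  have hG : Primrec G :=
    Primrec.encode.comp (Primrec.list_concat.comp
      (Primrec.option_getD.comp (Primrec.decode.comp (Primrec.fst.comp Primrec.unpair))
        (Primrec.const []))
      (Primrec.eq.decide.comp (Primrec.snd.comp Primrec.unpair) (Primrec.const 1)))
  have h1 := ((TR.prim hG).comp ((TR.prim (Primrec.snd.comp Primrec.unpair)).pair
    (ho.comp (TR.prim (Primrec.fst.comp Primrec.unpair))))).prec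
    (Encodable.encode ([] : List Bool))
  refine Nat.RecursiveIn.of_eq h1 fun n => congrArg Part.some ?_
  induction n with
  | zero => rfl
  | succ n ih =>
    simp only [Nat.unpair_pair] at ih ⊢
    rw [ih, pre_succ]
    simp only [G, Nat.unpair_pair, Encodable.encodek, Option.getD_some]
    cases x n <;> rfl

end LinkA

open LinkA in
/-- (→) by induction on `Nat.RecursiveIn {χ_x} f`: there is a `Primrec₂ ψ : List Bool → ℕ → Option ℕ` with
`ψ (pre x s) a = some v → v ∈ f a` and `v ∈ f a → ∃ N, ∀ s ≥ N, ψ (pre x s) a = some v`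
(`oracle`: `l[a]?`; `comp`: `bind`; `prec`: `Nat.rec` with `bind`; `rfind`: run `k < l.length` with a state in
`Option (Option ℕ)`: stuck / still searching / found).
(←) `s ↦ encode (pre x s)` is `Nat.RecursiveIn` by `prec` (`pre_succ`, `Nat.Primrec.recursiveIn`),
compose with `ψ`, `rfind` the first `s` where it is `some`. -/
theorem link (x y : R) :
    TuringReducible (charFun {n | y n = true}) (charFun {n | x n = true}) ↔ Red y x := by
  rw [TuringReducible, RecursiveIn.iff_nat]
  constructor
  · intro h
    obtain ⟨ψ, h1, H⟩ := ap_of_rec x h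
    refine ⟨fun l a => (ψ l a).map fun v => decide (v = 1),
      Primrec.option_map h1 (Primrec.eq.decide.comp Primrec.snd (Primrec.const 1)),
      fun a => ⟨fun s v hv => ?_, ?_⟩⟩
    · obtain ⟨w, hw, rfl⟩ := Option.map_eq_some_iff.1 hv
      have := (H a).1 s w hw
      rw [charFun_eq, Part.mem_some_iff] at this
      rw [this]
      cases y a <;> rfl
    · obtain ⟨N, hN⟩ := (H a).2 (cond (y a) 1 0) (by rw [charFun_eq]; exact Part.mem_some _)
      refine ⟨N, fun s hs => ?_⟩
      simp only [hN s hs, Option.map_some]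
      cases y a <;> rfl
  · rintro ⟨ψ, h1, H⟩
    let V : ℕ → ℕ := fun q => Option.casesOn (ψ ((Encodable.decode q.unpair.2 :
      Option (List Bool)).getD []) q.unpair.1) 0 fun b => cond b 2 1
    have hV : Primrec V :=
      Primrec.option_casesOn (h1.comp (Primrec.option_getD.comp
        (Primrec.decode.comp (Primrec.snd.comp Primrec.unpair)) (Primrec.const []))
        (Primrec.fst.comp Primrec.unpair)) (Primrec.const 0)
        (Primrec.cond Primrec.snd (Primrec.const 2) (Primrec.const 1))
    let W : ℕ → ℕ := fun q => V (Nat.pair q.unpair.1 (Encodable.encode (pre x q.unpair.2)))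
    have hW : TR {charFun {n | x n = true}} W :=
      (TR.prim hV).comp ((TR.prim (Primrec.fst.comp Primrec.unpair)).pair
        ((tr_pre x).comp (TR.prim (Primrec.snd.comp Primrec.unpair))))
    have hWe : ∀ a s, W (Nat.pair a s) = Option.casesOn (ψ (pre x s) a) 0 fun b => cond b 2 1 := by
      intro a s
      simp only [W, V, Nat.unpair_pair, Encodable.encodek, Option.getD_some]
    have hT : TR {charFun {n | x n = true}} fun q => 1 - W q :=
      (TR.prim (Primrec.nat_sub.comp (Primrec.const 1) Primrec.id)).comp hW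
    have hex : ∀ a, ∃ s, 1 - W (Nat.pair a s) = 0 := by
      intro a
      obtain ⟨N, hN⟩ := (H a).2
      refine ⟨N, ?_⟩
      rw [hWe, hN N le_rfl]
      cases y a <;> rfl
    have hF := (TR.prim Primrec.pred).comp (hW.comp ((TR.prim Primrec.id).pair (hT.find hex)))
    refine Nat.RecursiveIn.of_eq hF fun a => ?_
    rw [charFun_eq]
    congr 1
    have h2 := Nat.find_spec (hex a)
    simp only [id]
    rw [hWe] at h2 ⊢
    rcases hc : ψ (pre x (Nat.find (hex a))) a with _ | b
    · rw [hc] at h2; cases h2
    · rw [← (H a).1 _ b hc]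
      cases b <;> rfl

/-- `deg x = ⟨degOf {n | x n = true}, _⟩` is onto `SetDegree` and `deg y ≤ deg x ↔ Red y x` (`link`);
take `f x`, `g x` representatives of `π (deg x)`, `π.symm (deg x)`; apply `h` to `(f,g)` and `(g,f)`. -/
theorem final (h : ∀ f g : R → R, Aut f g → ∀ x, Red (g x) x) (π : SetDegree ≃o SetDegree) :
    π = OrderIso.refl SetDegree := by
  classical
  let deg : R → SetDegree := fun x => ⟨degOf {n | x n = true}, _, rfl⟩
  have hle : ∀ x y, deg y ≤ deg x ↔ Red y x := fun x y => by
    rw [← link]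
    exact Iff.rfl
  have hsurj : ∀ d : SetDegree, ∃ x, deg x = d := by
    rintro ⟨d, A, rfl⟩
    refine ⟨fun n => decide (n ∈ A), Subtype.ext ?_⟩
    show degOf _ = degOf A
    congr 1
    ext n
    simp
  choose rep hrep using hsurj
  let f : R → R := fun x => rep (π (deg x))
  let g : R → R := fun x => rep (π.symm (deg x))
  have hf : ∀ x, deg (f x) = π (deg x) := fun x => hrep _
  have hg : ∀ x, deg (g x) = π.symm (deg x) := fun x => hrep _
  have hA : Aut f g := by
    refine ⟨fun x y => ?_, fun x y => ?_, fun x => ?_, fun x => ?_⟩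
    · rw [← hle, ← hle, hf, hf, π.le_iff_le]
    · rw [← hle, ← hle, hg, hg, π.symm.le_iff_le]
    · constructor <;> rw [← hle, hg, hf, π.symm_apply_apply]
    · constructor <;> rw [← hle, hf, hg, π.apply_symm_apply]
  refine OrderIso.ext (funext fun d => ?_)
  have h1 := (hle _ _).2 (h f g hA (rep d))
  have h2 := (hle _ _).2 (h g f hA.symm (rep d))
  rw [hg, hrep] at h1
  rw [hf, hrep] at h2
  refine le_antisymm h2 ?_
  have := π.monotone h1
  rwa [π.apply_symm_apply] at this

end Crest.Agent.R292
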