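import Crest.Agent.R292.Shift

/-! # R292 MAIN: reading the bits of a generic real from its image -/

set_option autoImplicit false

open Filter Topology

namespace Crest.Agent.R292

/-- column `j` of `x` points at `n` -/
def Pt (x : R) (j n : ℕ) : Prop :=
  x (Nat.pair j (n + 2)) = false ∧ ∀ m < n, x (Nat.pair j (m + 2)) = true

theorem Pt.unique {x : R} {j n n' : ℕ} (h : Pt x j n) (h' : Pt x j n') : n = n' := by
  rcases lt_trichotomy n n' with c | c | c
  · have := h'.2 n c; rw [h.1] at this; cases this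
  · exact c
  · have := h.2 n' c; rw [h'.1] at this; cases this

theorem exists_pt {x : R} {j : ℕ} (h : ∃ i, x (Nat.pair j (i + 2)) = false) : ∃ n, Pt x j n :=
  ⟨Nat.find h, Nat.find_spec h, fun m hm => by simpa using Nat.find_min h hm⟩

open Classical in
/-- the pointer map -/
noncomputable def B (x y : R) : R := fun j =>
  xor (x (Nat.pair j 0)) (x (Nat.pair j 1) && decide (∃ n, Pt x j n ∧ y n = true))

theorem B_eq {x : R} {j n : ℕ} (h : Pt x j n) (y : R) :
    B x y j = xor (x (Nat.pair j 0)) (x (Nat.pair j 1) && y n) := by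
  classical
  have : decide (∃ n, Pt x j n ∧ y n = true) = y n := by
    cases hy : y n with
    | true => exact decide_eq_true ⟨n, h, hy⟩
    | false =>
      refine decide_eq_false fun ⟨n', h1, h2⟩ => ?_
      rw [← h.unique h1, hy] at h2; cases h2
  unfold B
  rw [← this]

theorem B_meas : Measurable fun p : R × R => B p.1 p.2 := by
  classical
  refine measurable_pi_lambda _ fun j => ?_
  have e1 : ∀ (n : ℕ), Measurable fun p : R × R => p.1 n := fun n =>
    (measurable_pi_apply n).comp measurable_fst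
  have e2 : ∀ (n : ℕ), Measurable fun p : R × R => p.2 n := fun n =>
    (measurable_pi_apply n).comp measurable_snd
  have e3 : Measurable fun p : R × R => decide (∃ n, Pt p.1 j n ∧ p.2 n = true) := by
    refine measurable_to_bool ?_
    have : (fun p : R × R => decide (∃ n, Pt p.1 j n ∧ p.2 n = true)) ⁻¹' {true} =
        {p | ∃ n, Pt p.1 j n ∧ p.2 n = true} := by
      ext p; simp
    rw [this]
    refine measurableSet_setOfPred.2 (Measurable.exists fun n => Measurable.and (Measurable.and
      (measurableSet_setOfPred.1 (e1 _ (measurableSet_singleton false)))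
      (Measurable.forall fun m => Measurable.imp measurable_const
        (measurableSet_setOfPred.1 (e1 _ (measurableSet_singleton true)))))
      (measurableSet_setOfPred.1 (e2 _ (measurableSet_singleton true))))
  exact (measurable_of_countable fun q : Bool × Bool × Bool => xor q.1 (q.2.1 && q.2.2)).comp
    ((e1 _).prodMk ((e1 _).prodMk e3))

theorem B_red {x : R} (h : ∀ j, ∃ i, x (Nat.pair j (i + 2)) = false) (y : R) :
    Red (B x y) (jn x y) := by
  have h1 := red_iff_uc.1 (red_jn_left x y)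
  have h2 := red_iff_uc.1 (red_jn_right x y)
  have pp : ∀ c : ℕ, Primrec fun q : ℕ × ℕ => Nat.pair q.1 c := fun c =>
    Primrec₂.natPair.comp Primrec.fst (Primrec.const c)
  have h3 : UC (fun _ : Unit => jn x y) fun _ (q : ℕ × ℕ) =>
      pre (fun m => x (Nat.pair q.1 (m + 2))) q.2 :=
    UC.pre (Y := fun _ j m => x (Nat.pair j (m + 2))) (h1.arg (g := fun q : ℕ × ℕ =>
      Nat.pair q.1 (q.2 + 2)) (Primrec₂.natPair.comp Primrec.fst
        (Primrec.nat_add.comp Primrec.snd (Primrec.const 2))))
  have h4 : UC (fun _ : Unit => jn x y) fun _ (q : ℕ × ℕ) =>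
      pre (fun m => decide (m < q.1)) q.2 :=
    UC.pre (Y := fun _ n m => decide (m < n))
      (UC.prim (Primrec.nat_lt.comp Primrec.snd Primrec.fst).decide)
  have key : ∀ j n, pre (fun m => x (Nat.pair j (m + 2))) (n + 1) =
      pre (fun m => decide (m < n)) (n + 1) ↔ Pt x j n := by
    intro j n
    constructor
    · intro e
      have e' : ∀ m, m < n + 1 → x (Nat.pair j (m + 2)) = decide (m < n) := by
        intro m hm
        have := congrArg (fun l => l[m]?) e
        simp only [pre_getElem?, if_pos hm] at this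
        exact Option.some.inj this
      exact ⟨by simpa using e' n (by omega), fun m hm => by simpa [hm] using e' m (by omega)⟩
    · intro e
      refine pre_congr fun m hm => ?_
      rcases Nat.lt_succ_iff_lt_or_eq.1 hm with c | rfl
      · simp [e.2 m c, c]
      · simp [e.1]
  refine red_iff_uc.2 (UC.search (γ := ℕ) (r := fun _ q =>
    if pre (fun m => x (Nat.pair q.1 (m + 2))) (q.2 + 1) = pre (fun m => decide (m < q.2)) (q.2 + 1)
    then some (xor (x (Nat.pair q.1 0)) (x (Nat.pair q.1 1) && y q.2)) else none) ?_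
    (fun _ j n v hv => ?_) fun _ j => ?_)
  · have a1 := h3.arg (g := fun q : ℕ × ℕ => (q.1, q.2 + 1))
      (Primrec.pair Primrec.fst (Primrec.succ.comp Primrec.snd))
    have a2 := h4.arg (g := fun q : ℕ × ℕ => (q.2, q.2 + 1))
      (Primrec.pair Primrec.snd (Primrec.succ.comp Primrec.snd))
    have a3 := ((h1.arg (pp 0)).pair ((h1.arg (pp 1)).pair (h2.arg Primrec.snd))).map
      (g := fun q : Bool × Bool × Bool => some (xor q.1 (q.2.1 && q.2.2))) (Primrec.dom_finite _)
    exact ((a1.pair a2).pair a3).map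
      (g := fun w : (List Bool × List Bool) × Option Bool => if w.1.1 = w.1.2 then w.2 else none)
      (Primrec.ite (Primrec.eq.comp (Primrec.fst.comp Primrec.fst) (Primrec.snd.comp Primrec.fst))
        Primrec.snd (Primrec.const none))
  · simp only at hv
    split_ifs at hv with c
    rw [B_eq ((key j n).1 c)]
    exact (Option.some.inj hv).symm
  · obtain ⟨n, hn⟩ := exists_pt (h j)
    refine ⟨n, ?_⟩
    simp only
    rw [if_pos ((key j n).2 hn), B_eq hn]

theorem ev_cols : ∀ᶠ x in residual R, ∀ j, ∃ i, x (Nat.pair j (i + 2)) = false := by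
  refine eventually_countable_forall.2 fun j => residual_of_dense_open ?_ ?_
  · have : {x : R | ∃ i, x (Nat.pair j (i + 2)) = false} =
        ⋃ i, (fun x : R => x (Nat.pair j (i + 2))) ⁻¹' {false} := by ext x; simp
    exact this ▸ isOpen_iUnion fun i => (isOpen_discrete _).preimage (continuous_apply _)
  · refine dense_iff_inter_open.2 fun U hU ⟨a, ha⟩ => ?_
    obtain ⟨k, hk⟩ := cyl hU ha
    refine ⟨spl k a fun _ => false, hk _ fun n hn => by simp [spl, hn], k, ?_⟩
    have := Nat.right_le_pair j (k + 2)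
    simp only [spl]
    rw [if_neg (by omega)]

theorem keyB (k : ℕ) (a : R) : ∃ N, ∀ b : R, ∃ τ : R, ∀ (m : ℕ) (c0 c1 : R), k ≤ m →
    (∀ j < k, c0 j = τ j) → (∀ j < k, c1 j = τ j) → ∃ σ : ℕ → List Bool, Primrec σ ∧
      ∀ n z, (∀ i < k, app (σ n) z i = a i) ∧ ∀ y : R, (∀ i < N, y i = b i) →
        ∀ j < m, B (app (σ n) z) y j = bif y n then c1 j else c0 j := by
  set x0 : R := spl k a fun _ => false with hx0
  have hc : ∀ j, ∃ n, Pt x0 j n := fun j => exists_pt ⟨k, by
    have := Nat.right_le_pair j (k + 2)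
    simp only [hx0, spl]
    rw [if_neg (by omega)]⟩
  choose pt hpt using hc
  set N := (Finset.range k).sup pt + 1 with hN
  have hptN : ∀ j < k, pt j < N := fun j hj =>
    Nat.lt_succ_of_le (Finset.le_sup (f := pt) (Finset.mem_range.2 hj))
  refine ⟨N, fun b => ⟨B x0 b, fun m c0 c1 hm h0 h1 => ?_⟩⟩
  set xs : ℕ → R := fun n p => if p.unpair.1 < k then (pre a k).getD p false
    else if p.unpair.2 = 0 then (pre c0 m).getD p.unpair.1 false
    else if p.unpair.2 = 1 then (pre (xr c0 c1) m).getD p.unpair.1 false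
    else decide (p.unpair.2 - 2 < n) with hxs
  have hg : ∀ (c : R) (m j : ℕ), j < m → (pre c m).getD j false = c j := by
    intro c m j hj
    rw [List.getD_eq_getElem?_getD, pre_getElem?, if_pos hj]; rfl
  have hx1 : ∀ n p, p.unpair.1 < k → xs n p = x0 p := by
    intro n p hp
    simp only [hxs, if_pos hp, hx0, spl, List.getD_eq_getElem?_getD, pre_getElem?]
    split_ifs <;> rfl
  have hxp : Primrec₂ xs := by
    have u1 : Primrec fun q : ℕ × ℕ => q.2.unpair.1 :=
      Primrec.fst.comp (Primrec.unpair.comp Primrec.snd)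
    have u2 : Primrec fun q : ℕ × ℕ => q.2.unpair.2 :=
      Primrec.snd.comp (Primrec.unpair.comp Primrec.snd)
    exact Primrec.ite (Primrec.nat_lt.comp u1 (Primrec.const k))
      ((Primrec.list_getD false).comp (Primrec.const _) Primrec.snd)
      (Primrec.ite (Primrec.eq.comp u2 (Primrec.const 0))
        ((Primrec.list_getD false).comp (Primrec.const _) u1)
        (Primrec.ite (Primrec.eq.comp u2 (Primrec.const 1))
          ((Primrec.list_getD false).comp (Primrec.const _) u1)
          (Primrec.nat_lt.comp (Primrec.nat_sub.comp u2 (Primrec.const 2)) Primrec.fst).decide))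
  set L : ℕ → ℕ := fun n => (n + (m + N + 3)) * (n + (m + N + 3)) with hL
  have hLp : Primrec L := Primrec.nat_mul.comp (Primrec.nat_add.comp Primrec.id (Primrec.const _))
    (Primrec.nat_add.comp Primrec.id (Primrec.const _))
  refine ⟨fun n => pre (xs n) (L n), Primrec.list_map (Primrec.list_range.comp hLp) hxp,
    fun n z => ?_⟩
  rw [app_pre]
  have hin : ∀ j i, j < m → i ≤ n + N + 2 → spl (L n) (xs n) z (Nat.pair j i) = xs n (Nat.pair j i) := by
    intro j i hj hi
    have h2 := Nat.pair_lt_max_add_one_sq j i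
    have h3 : max j i + 1 ≤ n + (m + N + 3) := by omega
    have h4 : (max j i + 1) ^ 2 ≤ L n := by rw [sq]; exact Nat.mul_le_mul h3 h3
    simp only [spl]
    rw [if_pos (by omega)]
  refine ⟨fun i hi => ?_, fun y hy j hj => ?_⟩
  · have h2 : i < L n := by
      have : n + (m + N + 3) ≤ L n := Nat.le_mul_self _
      omega
    have h3 := Nat.unpair_left_le i
    simp only [spl, if_pos h2]
    rw [hx1 n i (by omega)]
    simp only [hx0, spl, if_pos hi]
  · by_cases hjk : j < k
    · have e : ∀ i, i ≤ n + N + 2 → spl (L n) (xs n) z (Nat.pair j i) = x0 (Nat.pair j i) :=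
        fun i hi => (hin j i hj hi).trans (hx1 _ _ (by simpa using hjk))
      have hp := hptN j hjk
      have h2 : Pt (spl (L n) (xs n) z) j (pt j) :=
        ⟨(e _ (by omega)).trans (hpt j).1, fun i hi => (e _ (by omega)).trans ((hpt j).2 i hi)⟩
      rw [B_eq h2, e 0 (by omega), e 1 (by omega), hy _ hp, ← B_eq (hpt j), h0 j hjk, h1 j hjk]
      cases y n <;> rfl
    · have h2 : Pt (spl (L n) (xs n) z) j n := by
        refine ⟨?_, fun i hi => ?_⟩
        · rw [hin j _ hj (by omega)]; simp [hxs, hjk]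
        · rw [hin j _ hj (by omega)]; simp [hxs, hjk, hi]
      rw [B_eq h2, hin j 0 hj (by omega), hin j 1 hj (by omega)]
      simp only [hxs, Nat.unpair_pair, if_neg hjk, if_true, if_false, one_ne_zero, hg _ _ _ hj, xr]
      cases y n <;> cases c0 j <;> cases c1 j <;> rfl

theorem ev_B {P : R → Prop} (h : ∀ᶠ w in residual R, P w) :
    ∀ᶠ p in residual (R × R), P (B p.1 p.2) := by
  obtain ⟨S, hS1, hS2, hS3, hS4⟩ := mem_residual_iff.1 h
  have key : ∀ O ∈ S, ∀ᶠ p in residual (R × R), B p.1 p.2 ∈ O := by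
    intro O hO
    refine mem_of_superset (residual_of_dense_open
      (s := interior {p : R × R | B p.1 p.2 ∈ O}) isOpen_interior ?_) interior_subset
    refine dense_iff_inter_open.2 fun U hU ⟨⟨a, b⟩, hab⟩ => ?_
    obtain ⟨k, hk⟩ := cyl2 hU hab
    obtain ⟨N, hN⟩ := keyB k a
    obtain ⟨τ, hτ⟩ := hN b
    obtain ⟨c, hc1, hc2⟩ := (hS2 O hO).inter_open_nonempty _ (isOpen_cyl k τ) ⟨τ, fun _ _ => rfl⟩
    obtain ⟨m, hm⟩ := cyl (hS1 O hO) hc2
    obtain ⟨σ, -, hσ⟩ := hτ (max k m) c c (le_max_left _ _) hc1 hc1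
    refine ⟨(app (σ 0) a, b), hk _ _ (hσ 0 a).1 fun _ _ => rfl, ?_⟩
    refine mem_interior.2 ⟨Set.range (app (σ 0)) ×ˢ {y : R | ∀ i < N, y i = b i}, ?_,
      (app_open _).isOpen_range.prod (isOpen_cyl N b), ⟨a, rfl⟩, fun _ _ => rfl⟩
    rintro ⟨x, y⟩ ⟨⟨z, rfl⟩, hy⟩
    refine hm _ fun j hj => ?_
    rw [(hσ 0 z).2 y hy j (lt_max_of_lt_right hj)]
    cases y 0 <;> rfl
  filter_upwards [(eventually_countable_ball hS3).2 key] with p hp
  exact hS4 hp

theorem two_bits {f g F : R → R} (h : Aut f g) (hF : Rep f F) (k : ℕ) (τ : R) :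
    ∃ (i m : ℕ) (c : Bool → R), k ≤ m ∧ (∀ b, ∀ j < k, c b j = τ j) ∧
      ∀ᶠ w in residual R, ∀ b, (∀ j < m, w j = c b j) → F w i = b := by
  have hms : ∀ i b, MeasurableSet {w : R | (∀ j < k, w j = τ j) ∧ F w i = b} := fun i b =>
    (isOpen_cyl k τ).measurableSet.inter
      (((measurable_pi_apply i).comp hF.1) (measurableSet_singleton b))
  obtain ⟨i, hi⟩ : ∃ i, ∀ b, ¬ ∀ᶠ w in residual R,
      w ∉ {w : R | (∀ j < k, w j = τ j) ∧ F w i = b} := by
    by_contra hc
    push Not at hc
    choose w0 hw0 using hc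
    have h1 := flip (P := R) (a := fun _ => g fun i => !w0 i) (b := id) continuous_const
      continuous_id isClopen_univ (by
        intro U hU p hp _
        obtain ⟨n, hn⟩ := cyl hU hp
        refine ⟨Function.update p n (!p n), hn _ fun j hj => Function.update_of_ne hj.ne _ _, rfl,
          fun e => ?_⟩
        have := congrFun e n
        simp at this)
    obtain ⟨w, hw1, hw2, hw3, hw4⟩ := ev_exists ((eventually_countable_forall.2 hw0).and
      (h1.and hF.2)) (isOpen_cyl k τ) ⟨τ, fun _ _ => rfl⟩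
    refine hw3 trivial ?_
    have e : F w = fun i => !w0 i := by
      funext i
      have := hw2 i
      simp only [Set.mem_ofPred_eq, not_and] at this
      exact Bool.eq_not_iff.2 (this hw1)
    rw [← e]
    exact (h.gf w).2.trans ((h.g_iff _ _).2 hw4.2)
  have h2 : ∀ b, ∃ (m : ℕ) (c : R), (∀ j < k, c j = τ j) ∧
      ∀ᶠ w in residual R, (∀ j < m, w j = c j) → F w i = b := by
    intro b
    obtain ⟨U, hU, hne, H⟩ := loc (hms i b) (hi b)
    obtain ⟨c, hc1, hc2⟩ := ev_exists H hU hne
    obtain ⟨m, hm⟩ := cyl hU hc1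
    refine ⟨m, c, (hc2 hc1).1, ?_⟩
    filter_upwards [H] with w hw hw'
    exact (hw (hm w hw')).2
  choose m c h3 h4 using h2
  refine ⟨i, max k (max (m false) (m true)), c, le_max_left _ _, h3, ?_⟩
  filter_upwards [h4 false, h4 true] with w w0 w1 b hb
  cases b
  · exact w0 fun j hj => hb j (by omega)
  · exact w1 fun j hj => hb j (by omega)

theorem main {f g F : R → R} (h : Aut f g) (hF : Rep f F) : ∀ᶠ y in residual R, Red (g y) y := by
  obtain ⟨G, hG, HS⟩ := shift h hF
  obtain ⟨en, h1, h2⟩ := exists_en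
  obtain ⟨e, U, hU, ⟨⟨a, b⟩, hab⟩, H⟩ := loc_count (X := R × R) (ι := ℕ)
    (A := fun e => {p | Cm (en e) (jn (G p.1) (F p.2)) (F (B p.1 p.2))})
    (fun e => meas_Cm2 _ (meas_jn2 (hG.1.comp measurable_fst) (hF.1.comp measurable_snd))
      (hF.1.comp B_meas)) (by
      filter_upwards [ev_comp continuous_fst isOpenMap_fst hG.2,
        ev_comp continuous_snd isOpenMap_snd hF.2, ev_B hF.2,
        ev_comp continuous_fst isOpenMap_fst ev_cols] with p p1 p2 p3 p4
      obtain ⟨ψ, a1, a2⟩ := h.red2 p1 p2 p3 (B_red p4 _)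
      obtain ⟨e1, rfl⟩ := h2 ψ a1
      exact ⟨e1, a2⟩)
  obtain ⟨k, hk⟩ := cyl2 hU hab
  obtain ⟨N, hN⟩ := keyB k a
  obtain ⟨τ, hτ⟩ := hN b
  obtain ⟨i, m, c, hm, hc, Hc⟩ := two_bits h hF k τ
  obtain ⟨σ, hσp, hσ⟩ := hτ m (c false) (c true) hm (hc false) (hc true)
  have mc : ∀ n, Continuous fun p : R × (R × R) => (app (σ n) p.2.1, p.1) := fun n =>
    ((app_cont _).comp (continuous_fst.comp continuous_snd)).prodMk continuous_fst
  have mo : ∀ n, IsOpenMap fun p : R × (R × R) => (app (σ n) p.2.1, p.1) := fun n =>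
    (((app_open (σ n)).comp isOpenMap_fst).prodMap IsOpenMap.id).comp
      (Homeomorph.prodComm R (R × R)).isOpenMap
  have key : ∀ᶠ p in residual (R × (R × R)), (∀ j < max k N, p.1 j = b j) →
      Red (g p.1) (jn p.1 (jn p.2.1 p.2.2)) := by
    filter_upwards [ev_comp continuous_snd isOpenMap_snd HS,
      eventually_countable_forall.2 fun n => ev_comp (mc n) (mo n) H,
      eventually_countable_forall.2 fun n => ev_comp (mc n) (mo n) (ev_B Hc),
      ev_comp (continuous_fst.comp continuous_snd) (isOpenMap_fst.comp isOpenMap_snd) hG.2,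
      ev_comp continuous_fst isOpenMap_fst hF.2] with p p1 p2 p3 p4 p5 hy
    obtain ⟨y, z, v⟩ := p
    obtain ⟨Q, q1, q2⟩ := p1
    simp only [Function.comp] at q1 q2 p2 p3 p4 p5 hy ⊢
    set O : R := jn (jn (G z) Q) (F y) with hO
    obtain ⟨ψ, s1, s2⟩ := q2
    have o1 : UC (fun _ : Unit => O) fun _ (q : List Bool × ℕ) => G (app q.1 z) q.2 :=
      UC.app s1 (red_iff_uc.1 (red_jn_left _ _)) s2
    have o2 : UC (fun _ : Unit => O) fun _ => F y := red_iff_uc.1 (red_jn_right _ _)
    have hd : Primrec fun q : ℕ × ℕ => q.2 / 2 := Primrec.nat_div.comp Primrec.snd (Primrec.const 2)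
    have o3 : UC (fun _ : Unit => O) fun _ (q : ℕ × ℕ) => jn (G (app (σ q.1) z)) (F y) q.2 :=
      ((UC.prim Primrec.snd).pair ((o1.arg (g := fun q : ℕ × ℕ => (σ q.1, q.2 / 2))
        (Primrec.pair (hσp.comp Primrec.fst) hd)).pair (o2.arg hd))).map
        (g := fun q : ℕ × Bool × Bool => if q.1 % 2 = 0 then q.2.1 else q.2.2)
        (Primrec.ite (Primrec.eq.comp (Primrec.nat_mod.comp Primrec.fst (Primrec.const 2))
          (Primrec.const 0)) (Primrec.fst.comp Primrec.snd) (Primrec.snd.comp Primrec.snd))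
    have o4 := UC.trans (Y := fun _ n => jn (G (app (σ n) z)) (F y))
      (f := fun _ n => F (B (app (σ n) z) y)) (h1 e) o3
      fun _ n => p2 n (hk _ _ (hσ n z).1 fun j hj => hy j (by omega))
    have o5 : Red y O := by
      refine red_iff_uc.2 ((o4.arg (g := fun n : ℕ => (n, i))
        (Primrec.pair Primrec.id (Primrec.const i))).of_eq fun _ n => ?_)
      refine p3 n (y n) fun j hj => ?_
      rw [(hσ n z).2 y (fun j hj => hy j (by omega)) j hj]
      cases y n <;> rfl
    have o6 : Red O (f (jn y (jn z v))) :=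
      ((p4.1.trans ((h.f_iff _ _).2 ((red_jn_left z v).trans (red_jn_right _ _)))).jn
        (q1.trans ((h.f_iff _ _).2 ((red_jn_right z v).trans (red_jn_right _ _))))).jn
        (p5.1.trans ((h.f_iff _ _).2 (red_jn_left _ _)))
    exact ((h.g_iff _ _).2 (o5.trans o6)).trans (h.gf _).1
  have key2 : ∀ᶠ y in residual R, (∀ j < max k N, y j = b j) → Red (g y) y := by
    filter_upwards [ku key] with y hy hyb
    by_contra hc
    obtain ⟨p, -, ⟨z, v, rfl, c1⟩, c2⟩ := ev_exists ((ev_jn hy).and (nm hc)) isOpen_univ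
      Set.univ_nonempty
    exact c2 (c1 hyb)
  filter_upwards [ev_comp (spl_cont (max k N) b) (spl_open _ b) key2] with y hy
  have e := eqv_spl (max k N) b y
  exact ((h.g_iff _ _).2 e.2).trans ((hy fun j hj => by simp only [spl, if_pos hj]).trans e.1)

theorem all {f g : R → R} (h : Aut f g) (H : ∀ᶠ y in residual R, Red (g y) y) (x : R) :
    Red (g x) x := by
  by_contra hc
  obtain ⟨p, -, c1, c2, c3⟩ := ev_exists (H.and ((ev_comp (xr_const_cont x) (xr_const_open x) H).and
    (nm hc))) isOpen_univ Set.univ_nonempty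
  refine c3 ?_
  have e : xr (xr p x) p = x := by
    funext n; simp only [xr]; cases p n <;> cases x n <;> rfl
  have a1 : Red x (jn (xr p x) p) := by
    have := (red_jn_left (xr p x) p).xr (red_jn_right (xr p x) p)
    rwa [e] at this
  exact ((h.g_iff _ _).2 a1).trans ((h.symm.jn _ _).trans
    ((c2.trans ((red_jn_right x p).xr (red_jn_left x p))).jn (c1.trans (red_jn_right x p))))

end Crest.Agent.R292
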