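import Crest.Agent.R292.Calc
import Crest.Agent.R292.Diag

/-! # R292 ONE: Borel representation on a comeagre set (task 292-ONE) -/

set_option autoImplicit false

open Filter Topology

namespace Crest.Agent.R292

theorem ONE_meas {α : Type*} [MeasurableSpace α] {a b : α → R} (ha : Measurable a)
    (hb : Measurable b) : MeasurableSet {x | Red (a x) (b x)} :=
  (ha.prodMk hb) meas_Red

/-- the columns of `H` selected by `Y` -/
def ONE_A (p : R × T) : R := flat fun i n => p.1 i && p.2 i n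

theorem ONE_cont : Continuous ONE_A := by
  refine flat_cont.comp (continuous_pi fun i => continuous_pi fun n => ?_)
  have h1 : Continuous fun p : R × T => (p.1 i, p.2 i n) := by fun_prop
  exact (continuous_of_discreteTopology (f := fun q : Bool × Bool => q.1 && q.2)).comp h1

theorem ONE_H : ∃ H : T, ∀ᶠ Y in residual R, ∀ i, Y i = true ↔ Red (H i) (ONE_A (Y, H)) := by
  have h1 : ∀ i, ∀ᶠ p in residual (R × T), p ∈ {p : R × T | p.1 i = false} →
      ¬ Red (p.2 i) (ONE_A p) := by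
    intro i
    refine flip (a := ONE_A) (b := fun p : R × T => p.2 i) ONE_cont
      ((continuous_apply i).comp continuous_snd)
      ((isClopen_discrete {false}).preimage ((continuous_apply i).comp continuous_fst)) ?_
    intro U hU p hp hS
    have hc : Continuous fun c : R => (p.1, Function.update p.2 i c) :=
      continuous_const.prodMk (continuous_const.update i continuous_id)
    obtain ⟨k, hk⟩ := cyl (hU.preimage hc) (a := p.2 i) (by simpa using hp)
    refine ⟨_, hk (Function.update (p.2 i) k (!p.2 i k)) fun n hn =>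
      Function.update_of_ne hn.ne _ _, ?_, ?_⟩
    · unfold ONE_A
      congr 1
      funext i' n
      by_cases hi : i' = i
      · have hS' : p.1 i = false := hS
        simp [hi, hS']
      · simp [Function.update_of_ne hi]
    · intro h
      have := congrFun h k
      simp at this
  have h2 := ev_comp (φ := (Prod.swap : T × R → R × T)) continuous_swap
    (Homeomorph.prodComm T R).isOpenMap (eventually_countable_forall.2 h1)
  obtain ⟨H, -, hH⟩ := ev_exists (ku h2) isOpen_univ Set.univ_nonempty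
  refine ⟨H, hH.mono fun Y hY i => ⟨fun h => ?_, fun h => ?_⟩⟩
  · have := red_flat (fun i n => Y i && H i n) i
    simpa [h, ONE_A] using this
  · by_contra hn
    exact hY i (by simpa using hn) h

/-- `A (Y, H) = flat (fun i => if Y i then H i else fun _ => false)` is continuous on `R × T`.
`flip` (`S = {Y i = false}`, `a = A`, `b = H i`; change a far bit of `H i`, e.g. by continuity of
`c ↦ (Y, update H i c)`), countable intersection over `i`, swap the factors and `ku`: there is `H` with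
`∀ᶠ Y, ∀ i, Y i = false → ¬ Red (H i) (A (Y, H))`; for `Y i = true`, `red_flat`.  `perf` gives `j, k`;
`cont_red` for `Y ↦ A (j Y, H)` gives `D`.  For `Y = f x`:
`g (A (j Y, H)) ≤ g (jn Y D) ≤ jn (g Y) (g D) ≤ jn x (g D)` (`Aut.jn h.symm`), so it is `Φ e (jn x (g D))`, and
`j Y i = true ↔ Red (g (H i)) (g (A (j Y, H)))`.  Take
`Ψ e x = k (fun i => decide (Red (g (H i)) (Φ e (jn x (g D)))))`. -/
theorem one {f g : R → R} (h : Aut f g) :
    ∃ Ψ : ℕ → R → R, (∀ e, Measurable (Ψ e)) ∧ ∀ x, ∃ e, f x = Ψ e x := by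
  classical
  obtain ⟨H, hH⟩ := ONE_H
  obtain ⟨j, k, hj, hk, hP, hkj⟩ := perf hH
  obtain ⟨D, hD⟩ := cont_red (j := fun Y => ONE_A (j Y, H))
    (ONE_cont.comp (hj.prodMk continuous_const))
  obtain ⟨Φ, hΦ, hΦ'⟩ := exists_Phi
  refine ⟨fun e x => k fun i => decide (Red (g (H i)) (Φ e (jn x (g D)))), fun e => ?_,
    fun x => ?_⟩
  · refine hk.comp (measurable_pi_lambda _ fun i => measurable_to_bool ?_)
    have := ONE_meas (a := fun _ : R => g (H i)) (b := fun x => Φ e (jn x (g D))) measurable_const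
      ((hΦ e).comp (meas_jn.comp (measurable_id.prodMk measurable_const)))
    convert this using 1
    ext x
    simp
  · have h1 : Red (g (ONE_A (j (f x), H))) (jn x (g D)) :=
      (((h.g_iff _ _).2 (hD (f x))).trans (h.symm.jn _ _)).trans
        (((h.gf x).1.trans (red_jn_left _ _)).jn (red_jn_right _ _))
    obtain ⟨e, he⟩ := hΦ' _ _ h1
    refine ⟨e, ?_⟩
    rw [← hkj (f x)]
    congr 1
    funext i
    rw [he, h.g_iff, ← hP (f x) i]
    simp

/-- For measurable `Θ`: `ev_of_comp` for `(x, Z) ↦ update Z i x` (`upd_cont`, `upd_open`), `ku_rev`; for fixed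
`x` with `¬ Red (Θ x) x` use `nm`, `ev_comp flat_cont flat_open` and `red_upd`. -/
theorem maxl {Θ : R → R} (hΘ : Measurable Θ) (i : ℕ) :
    ∀ᶠ Z in residual T, Red (Θ (Z i)) (flat Z) → Red (Θ (Z i)) (Z i) := by
  have hs : MeasurableSet {Z : T | Red (Θ (Z i)) (flat Z) → Red (Θ (Z i)) (Z i)} :=
    (ONE_meas (hΘ.comp (measurable_pi_apply i)) flat_cont.measurable).imp
      (ONE_meas (hΘ.comp (measurable_pi_apply i)) (measurable_pi_apply i))
  refine ev_of_comp (upd_cont i) (upd_open i) (fun Z => ⟨(Z i, Z), by simp⟩) hs ?_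
  refine ku_rev ((upd_cont i).measurable hs) (Eventually.of_forall fun x => ?_)
  have key : ∀ᶠ Z in residual T, Red (Θ x) (flat (Function.update Z i x)) → Red (Θ x) x := by
    by_cases hx : Red (Θ x) x
    · exact Eventually.of_forall fun Z _ => hx
    · exact (ev_comp flat_cont flat_open (nm hx)).mono fun Z hZ h =>
        absurd (h.trans (red_upd Z i x)) hZ
  refine key.mono fun Z hZ => ?_
  show Red (Θ (Function.update Z i x i)) (flat (Function.update Z i x)) →
    Red (Θ (Function.update Z i x i)) (Function.update Z i x i)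
  rwa [Function.update_self]

/-- Let `Ψ`, `Ψ'` be given by `one h`, `one h.symm`.  For `Z` generic (`maxl` for all `Ψ' k' ∘ Ψ k`, `i`):
`Red (Ψ k (Z i)) (f (flat Z)) → Red (Ψ k (Z i)) (f (Z i))` (apply `g`; `g c = Ψ' k' c`).  Let
`Q e Z k := Red (Ψ k (Z e)) (Ψ e (flat Z)) ∧ ∀ k', Red (Ψ k' (Z e)) (Ψ e (flat Z)) → Red (Ψ k' (Z e)) (Ψ k (Z e))`
and `Ξ e Z = Ψ k (Z e)` for the least `k` with `Q e Z k ∨ ¬ ∃ k, Q e Z k` (`Measurable.find`).  If
`f (flat Z) = Ψ e (flat Z)` then `Eqv (Ξ e Z) (f (Z e))`.  `diag` gives `F₀, U`; with `cyl`,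
`F x = F₀ (spl k a x)` (`ev_comp (spl_cont k a) (spl_open k a)`, `eqv_spl`). -/
theorem rep {f g : R → R} (h : Aut f g) : ∃ F, Rep f F := by
  classical
  obtain ⟨Ψ, hΨ, hf⟩ := one h
  obtain ⟨Ψ', hΨ', hg⟩ := one h.symm
  have h1 : ∀ᶠ Z in residual T, ∀ k i,
      Red (Ψ k (Z i)) (f (flat Z)) → Red (Ψ k (Z i)) (f (Z i)) := by
    have h2 : ∀ᶠ Z in residual T, ∀ k k' i,
        Red (Ψ' k' (Ψ k (Z i))) (flat Z) → Red (Ψ' k' (Ψ k (Z i))) (Z i) :=
      eventually_countable_forall.2 fun k => eventually_countable_forall.2 fun k' =>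
        eventually_countable_forall.2 fun i => maxl ((hΨ' k').comp (hΨ k)) i
    refine h2.mono fun Z hZ k i hr => ?_
    obtain ⟨k', hk'⟩ := hg (Ψ k (Z i))
    have h3 := hZ k k' i
    rw [← hk'] at h3
    exact (h.fg _).2.trans ((h.f_iff _ _).2 (h3 (((h.g_iff _ _).2 hr).trans (h.gf _).1)))
  set Q : ℕ → ℕ → T → Prop := fun e k Z => Red (Ψ k (Z e)) (Ψ e (flat Z)) ∧
    ∀ k', Red (Ψ k' (Z e)) (Ψ e (flat Z)) → Red (Ψ k' (Z e)) (Ψ k (Z e)) with hQ
  have hm1 : ∀ e k, Measurable fun Z : T => Ψ k (Z e) := fun e k =>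
    (hΨ k).comp (measurable_pi_apply e)
  have hm2 : ∀ e, Measurable fun Z : T => Ψ e (flat Z) := fun e =>
    (hΨ e).comp flat_cont.measurable
  have hQm : ∀ e k, MeasurableSet {Z | Q e k Z} := fun e k =>
    (ONE_meas (hm1 e k) (hm2 e)).inter (by
      have := MeasurableSet.iInter fun k' =>
        (ONE_meas (hm1 e k') (hm2 e)).imp (ONE_meas (hm1 e k') (hm1 e k))
      rwa [← Set.ofPred_forall] at this)
  have hex : ∀ e Z, ∃ k, Q e k Z ∨ ¬ ∃ k, Q e k Z := fun e Z => by
    by_cases hq : ∃ k, Q e k Z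
    · exact hq.imp fun k hk => Or.inl hk
    · exact ⟨0, Or.inr hq⟩
  have hΞ : ∀ e, Measurable fun Z : T => Ψ (Nat.find (hex e Z)) (Z e) := fun e =>
    Measurable.find (f := fun k (Z : T) => Ψ k (Z e))
      (p := fun k Z => Q e k Z ∨ ¬ ∃ k, Q e k Z) (hm1 e) (fun k => (hQm e k).union (by
        have := (MeasurableSet.iUnion (hQm e)).compl
        rwa [← Set.ofPred_exists] at this)) (hex e)
  obtain ⟨F, U, hF, hU, ⟨a, ha⟩, hFU⟩ := diag f Eqv eqv_equiv meas_Eqv _ hΞ (h1.mono fun Z hZ => by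
    obtain ⟨e, he⟩ := hf (flat Z)
    obtain ⟨k₀, hk₀⟩ := hf (Z e)
    have h3 : Red (Ψ k₀ (Z e)) (Ψ e (flat Z)) := by
      rw [← hk₀, ← he]
      exact (h.f_iff _ _).2 (red_flat Z e)
    have h4 : Q e k₀ Z := ⟨h3, fun k' hk' => by
      rw [← hk₀]
      exact hZ k' e (he ▸ hk')⟩
    have h5 := (Nat.find_spec (hex e Z)).resolve_right fun hn => hn ⟨k₀, h4⟩
    refine ⟨e, hZ _ e (by rw [he]; exact h5.1), ?_⟩
    rw [hk₀]
    exact h5.2 k₀ h3)
  obtain ⟨k, hk⟩ := cyl hU ha
  refine ⟨fun x => F (spl k a x), hF.comp (spl_cont k a).measurable,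
    (ev_comp (spl_cont k a) (spl_open k a) hFU).mono fun x hx => ?_⟩
  exact eqv_equiv.trans (hx (hk _ fun n hn => if_pos hn))
    ⟨(h.f_iff _ _).2 (eqv_spl k a x).1, (h.f_iff _ _).2 (eqv_spl k a x).2⟩

end Crest.Agent.R292
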