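import Crest.Agent.R292.Calc

/-! # R292 SHIFT: a representative along which all finite prefixes are uniformly computable -/

set_option autoImplicit false

open Filter Topology

namespace Crest.Agent.R292

/-- prepend a string -/
def app : List Bool → R → R
  | [], z => z
  | b :: σ, z => spl 1 (fun _ => b) (app σ z)

theorem app_cont (σ : List Bool) : Continuous (app σ) := by
  induction σ with
  | nil => exact continuous_id
  | cons b σ ih => exact (spl_cont 1 _).comp ih

theorem app_open (σ : List Bool) : IsOpenMap (app σ) := by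
  induction σ with
  | nil => exact IsOpenMap.id
  | cons b σ ih => exact (spl_open 1 _).comp ih

theorem app_apply (σ : List Bool) (z : R) (n : ℕ) :
    app σ z n = if n < σ.length then σ.getD n false else z (n - σ.length) := by
  induction σ generalizing n with
  | nil => simp [app]
  | cons b σ ih =>
    cases n with
    | zero => simp [app, spl]
    | succ n =>
      simp only [app, spl, ih, List.length_cons, Nat.add_sub_cancel, List.getD_cons_succ,
        Nat.add_lt_add_iff_right, Nat.reduceSubDiff]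
      rw [if_neg (by omega)]

theorem app_pre (a : R) (k : ℕ) (z : R) : app (pre a k) z = spl k a z := by
  funext n
  simp only [app_apply, pre_length, spl, List.getD_eq_getElem?_getD, pre_getElem?]
  split_ifs <;> rfl

/-- collect the values of `φ` -/
def grow (φ : ℕ → Option Bool) (s : ℕ) : List Bool :=
  Nat.rec [] (fun _ l => ((φ l.length).map fun v => l ++ [v]).getD l) s

theorem grow_spec {φ : ℕ → Option Bool} {y : R} (h : ∀ n v, φ n = some v → v = y n) (s : ℕ) :
    ∃ t, grow φ s = pre y t ∧ ∀ m, m ≤ s → (∀ n < m, φ n = some (y n)) → m ≤ t := by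
  induction s with
  | zero => exact ⟨0, rfl, fun m hm _ => hm⟩
  | succ s ih =>
    obtain ⟨t, h1, h2⟩ := ih
    have e : grow φ (s + 1) = ((φ (grow φ s).length).map fun v => grow φ s ++ [v]).getD (grow φ s) :=
      rfl
    rw [h1, pre_length] at e
    cases hφ : φ t with
    | none =>
      rw [hφ] at e
      refine ⟨t, e, fun m hm hn => ?_⟩
      by_contra hc
      rw [hn t (by omega)] at hφ
      cases hφ
    | some v =>
      rw [hφ, h t v hφ] at e
      refine ⟨t + 1, e.trans (pre_succ _ _).symm, fun m hm hn => ?_⟩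
      have := h2 (m - 1) (by omega) fun n hn' => hn n (by omega)
      omega

theorem iter {O : List Bool → R} (h : UC O fun σ (p : Bool × ℕ) => O (p.1 :: σ) p.2) :
    UC (fun _ : Unit => O []) fun _ (p : List Bool × ℕ) => O p.1 p.2 := by
  obtain ⟨ψ, hψ, H⟩ := h
  set A : List Bool → List Bool → List Bool := fun l σ =>
    σ.foldr (fun b u => grow (fun n => ψ u (b, n)) l.length) l with hA
  have hAp : Primrec fun q : List Bool × List Bool => A q.1 q.2 := by
    have a1 : Primrec fun z : (((List Bool × List Bool) × Bool × List Bool) × ℕ × List Bool) =>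
        ψ z.1.2.2 (z.1.2.1, z.2.2.length) :=
      hψ.comp (Primrec.snd.comp (Primrec.snd.comp Primrec.fst))
        (Primrec.pair (Primrec.fst.comp (Primrec.snd.comp Primrec.fst))
          (Primrec.list_length.comp (Primrec.snd.comp Primrec.snd)))
    have a2 : Primrec₂ fun (z : (((List Bool × List Bool) × Bool × List Bool) × ℕ × List Bool))
        (v : Bool) => z.2.2 ++ [v] :=
      (Primrec.list_concat.comp (Primrec.snd.comp (Primrec.snd.comp Primrec.fst)) Primrec.snd).to₂
    have a3 : Primrec fun z : (((List Bool × List Bool) × Bool × List Bool) × ℕ × List Bool) =>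
        ((ψ z.1.2.2 (z.1.2.1, z.2.2.length)).map fun v => z.2.2 ++ [v]).getD z.2.2 :=
      Primrec.option_getD.comp (Primrec.option_map a1 a2) (Primrec.snd.comp Primrec.snd)
    have a4 : Primrec fun z : (List Bool × List Bool) × Bool × List Bool =>
        grow (fun n => ψ z.2.2 (z.2.1, n)) z.1.1.length :=
      Primrec.nat_rec' (f := fun z : (List Bool × List Bool) × Bool × List Bool => z.1.1.length)
        (g := fun _ => ([] : List Bool))
        (h := fun z (w : ℕ × List Bool) =>
          ((ψ z.2.2 (z.2.1, w.2.length)).map fun v => w.2 ++ [v]).getD w.2)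
        (Primrec.list_length.comp (Primrec.fst.comp Primrec.fst)) (Primrec.const _) a3.to₂
    exact Primrec.list_foldr (f := fun q : List Bool × List Bool => q.2) (g := fun q => q.1)
      (h := fun q (w : Bool × List Bool) => grow (fun n => ψ w.2 (w.1, n)) q.1.length)
      Primrec.snd Primrec.fst a4.to₂
  have key : ∀ σ, ∃ t : ℕ → ℕ, (∀ s, A (pre (O []) s) σ = pre (O σ) (t s)) ∧
      ∀ m, ∃ N, ∀ s, N ≤ s → m ≤ t s := by
    intro σ
    induction σ with
    | nil => exact ⟨id, fun _ => rfl, fun m => ⟨m, fun _ h => h⟩⟩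
    | cons b σ ih =>
      obtain ⟨t, h1, h2⟩ := ih
      have h3 : ∀ s, ∃ t', A (pre (O []) s) (b :: σ) = pre (O (b :: σ)) t' ∧ ∀ m, m ≤ s →
          (∀ n < m, ψ (pre (O σ) (t s)) (b, n) = some (O (b :: σ) n)) → m ≤ t' := by
        intro s
        have e : A (pre (O []) s) (b :: σ) =
            grow (fun n => ψ (A (pre (O []) s) σ) (b, n)) (pre (O []) s).length := rfl
        rw [e, h1, pre_length]
        exact grow_spec (fun n v hv => (H σ (b, n)).1 _ v hv) s
      choose t' h4 h5 using h3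
      refine ⟨t', h4, fun m => ?_⟩
      choose M hM using fun n => (H σ (b, n)).2
      obtain ⟨N, hN⟩ := h2 ((Finset.range m).sup M)
      refine ⟨max N m, fun s hs => h5 s m (le_of_max_le_right hs) fun n hn => hM n _ ?_⟩
      exact le_trans (Finset.le_sup (f := M) (Finset.mem_range.2 hn)) (hN s (le_of_max_le_left hs))
  refine ⟨fun l p => (A l p.1)[p.2]?, (Primrec.list_getElem?.comp
    (hAp.comp (Primrec.pair Primrec.fst (Primrec.fst.comp Primrec.snd)))
    (Primrec.snd.comp Primrec.snd)).to₂, fun _ p => ?_⟩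
  obtain ⟨t, h1, h2⟩ := key p.1
  refine ⟨fun s v hv => ?_, ?_⟩
  · simp only [h1, pre_getElem?] at hv
    split_ifs at hv
    exact (Option.some.inj hv).symm
  · obtain ⟨N, hN⟩ := h2 (p.2 + 1)
    refine ⟨N, fun s hs => ?_⟩
    simp only [h1, pre_getElem?]
    rw [if_pos (show p.2 < t s from hN s hs)]

theorem Rep.spl {f g F : R → R} (h : Aut f g) (hF : Rep f F) (k : ℕ) (a : R) :
    Rep f fun x => F (spl k a x) := by
  refine ⟨hF.1.comp (spl_cont k a).measurable, ?_⟩
  filter_upwards [ev_comp (spl_cont k a) (spl_open k a) hF.2] with x hx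
  exact eqv_equiv.trans hx ⟨(h.f_iff _ _).2 (eqv_spl k a x).1, (h.f_iff _ _).2 (eqv_spl k a x).2⟩

theorem Aut.red2 {f g : R → R} (h : Aut f g) {x y w x' y' w' : R} (hx : Eqv x' (f x))
    (hy : Eqv y' (f y)) (hw : Eqv w' (f w)) (H : Red w (R292.jn x y)) : Red w' (R292.jn x' y') :=
  hw.1.trans (((h.f_iff _ _).2 H).trans ((h.jn x y).trans
    ((hx.2.trans (red_jn_left _ _)).jn (hy.2.trans (red_jn_right _ _)))))

theorem xr_xr (x y : R) : xr (xr x y) y = x := by
  funext n; simp [xr]

theorem meas_Cm2 (ψ : List Bool → ℕ → Option Bool) {P : Type*} [MeasurableSpace P] {a b : P → R}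
    (ha : Measurable a) (hb : Measurable b) : MeasurableSet {p | Cm ψ (a p) (b p)} :=
  (ha.prodMk hb) (meas_Cm ψ)

theorem meas_jn2 {P : Type*} [MeasurableSpace P] {a b : P → R} (ha : Measurable a)
    (hb : Measurable b) : Measurable fun p => jn (a p) (b p) :=
  meas_jn.comp (ha.prodMk hb)

/-- uniform addition -/
theorem addl {f g F : R → R} (h : Aut f g) (hF : Rep f F) :
    ∃ (F1 F2 F3 : R → R) (a b : List Bool → ℕ → Option Bool), Rep f F1 ∧ Rep f F2 ∧
      Primrec₂ a ∧ Primrec₂ b ∧ ∀ᶠ p in residual (R × R),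
        Cm a (jn (F1 p.1) (F2 p.2)) (F3 (xr p.1 p.2)) ∧
        Cm b (jn (F3 (xr p.1 p.2)) (F2 p.2)) (F1 p.1) := by
  obtain ⟨en, h1, h2⟩ := exists_en
  have m1 : Measurable fun p : R × R => F p.1 := hF.1.comp measurable_fst
  have m2 : Measurable fun p : R × R => F p.2 := hF.1.comp measurable_snd
  have m3 : Measurable fun p : R × R => F (xr p.1 p.2) := hF.1.comp xr_cont.measurable
  obtain ⟨e, U, hU, ⟨⟨a, b⟩, hab⟩, H⟩ := loc_count (X := R × R) (ι := ℕ × ℕ)
    (A := fun e => {p | Cm (en e.1) (jn (F p.1) (F p.2)) (F (xr p.1 p.2))} ∩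
      {p | Cm (en e.2) (jn (F (xr p.1 p.2)) (F p.2)) (F p.1)})
    (fun e => (meas_Cm2 _ (meas_jn2 m1 m2) m3).inter (meas_Cm2 _ (meas_jn2 m3 m2) m1)) (by
      filter_upwards [ev_comp continuous_fst isOpenMap_fst hF.2,
        ev_comp continuous_snd isOpenMap_snd hF.2, ev_comp xr_cont xr_open hF.2] with p p1 p2 p3
      obtain ⟨ψ, a1, a2⟩ := h.red2 p1 p2 p3 ((red_jn_left _ _).xr (red_jn_right _ _))
      obtain ⟨φ, b1, b2⟩ := h.red2 p3 p2 p1 (by
        have := (red_jn_left (xr p.1 p.2) p.2).xr (red_jn_right (xr p.1 p.2) p.2)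
        rwa [xr_xr] at this)
      obtain ⟨e1, rfl⟩ := h2 ψ a1
      obtain ⟨e2, rfl⟩ := h2 φ b1
      exact ⟨(e1, e2), a2, b2⟩)
  obtain ⟨k, hk⟩ := cyl2 hU hab
  refine ⟨fun x => F (spl k a x), fun x => F (spl k b x), fun x => F (spl k (xr a b) x), en e.1,
    en e.2, hF.spl h k a, hF.spl h k b, h1 _, h1 _, ?_⟩
  filter_upwards [ev_comp ((spl_cont k a).prodMap (spl_cont k b))
    ((spl_open k a).prodMap (spl_open k b)) H] with p hp
  have e1 : xr (spl k a p.1) (spl k b p.2) = spl k (xr a b) (xr p.1 p.2) := by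
    funext n; simp only [xr, spl]; split_ifs <;> rfl
  have := hp (hk _ _ (fun n hn => by simp [spl, hn]) (fun n hn => by simp [spl, hn]))
  simp only [Prod.map, Set.mem_inter_iff, Set.mem_ofPred_eq, e1] at this
  exact this

theorem shift {f g F : R → R} (h : Aut f g) (hF : Rep f F) :
    ∃ G, Rep f G ∧ ∀ᶠ p in residual (R × R), ∃ Q, Red Q (f p.2) ∧
      UC (fun _ : Unit => jn (G p.1) Q) fun _ (q : List Bool × ℕ) => G (app q.1 p.1) q.2 := by
  obtain ⟨F1, F2, F3, a, b, r1, r2, ha, hb, H⟩ := addl h hF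
  obtain ⟨en, h1, h2⟩ := exists_en
  set o : R := fun _ => false with ho
  obtain ⟨e, U, hU, ⟨β, hβ⟩, Ht⟩ := loc_count (X := R) (ι := ℕ)
    (A := fun e => {x | Cm (en e) (F1 x) (F1 (spl 1 o x))})
    (fun e => meas_Cm2 _ r1.1 (r1.spl h 1 o).1) (by
      filter_upwards [r1.2, (r1.spl h 1 o).2] with x p1 p2
      obtain ⟨ψ, a1, a2⟩ := p2.1.trans p1.2
      obtain ⟨e1, rfl⟩ := h2 ψ a1
      exact ⟨e1, a2⟩)
  obtain ⟨k, hk⟩ := cyl hU hβ
  set Tr : R → R → R → Prop := fun u v d => Cm a (jn (F1 u) (F2 v)) (F3 (xr u v)) ∧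
    Cm b (jn (F3 (xr u v)) (F2 (xr v d))) (F1 (xr u d)) with hTr
  have tr1 : ∀ (φ : R → R), Continuous φ → IsOpenMap φ → ∀ d,
      ∀ᶠ p in residual (R × R), Tr (φ p.1) p.2 d := by
    intro φ hc hop d
    filter_upwards [ev_comp (hc.prodMap continuous_id) (hop.prodMap IsOpenMap.id) H,
      ev_comp (((xr_const_cont d).comp hc).prodMap (xr_const_cont d))
        (((xr_const_open d).comp hop).prodMap (xr_const_open d)) H] with p p1 p2
    refine ⟨p1.1, ?_⟩
    have e1 : xr (xr (φ p.1) d) (xr p.2 d) = xr (φ p.1) p.2 := by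
      funext n; simp only [xr]; cases φ p.1 n <;> cases p.2 n <;> cases d n <;> rfl
    have := p2.2
    simp only [Prod.map, Function.comp, e1] at this
    exact this
  have tr2 : ∀ {X u : List Bool → R} {v d : R}, UC X (fun i => F1 (u i)) → UC X (fun _ => F2 v) →
      UC X (fun _ => F2 (xr v d)) → (∀ i, Tr (u i) v d) → UC X fun i => F1 (xr (u i) d) :=
    fun c1 c2 c3 c4 => UC.app hb ((UC.app ha (c1.jn c2) fun i => (c4 i).1).jn c3) fun i => (c4 i).2
  set d : R := spl k β o with hd
  set d' : Bool → R := fun c => xr (spl 1 o (spl k β o)) (spl k o (spl 1 (fun _ => c) o)) with hd'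
  have e1 : ∀ w, xr (spl k o w) d = spl k β w := by
    intro w; funext n; simp only [xr, spl, hd, ho]; split_ifs <;> simp
  have e2 : ∀ c w, xr (spl 1 o (spl k β w)) (d' c) = spl k o (spl 1 (fun _ => c) w) := by
    intro c w; funext n; simp only [xr, spl, hd', ho]
    split_ifs <;> first | omega | simp
    congr 1; omega
  have rd : ∀ (v d : R), (∀ n, k + 1 ≤ n → d n = false) → Eqv (F2 (xr v d)) (f (xr v d)) →
      Red (F2 (xr v d)) (f v) := fun v d c1 c2 =>
    c2.1.trans ((h.f_iff _ _).2 ((Red.refl v).xr (red_fin c1 v)))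
  refine ⟨fun x => F1 (spl k o x), r1.spl h k o, ?_⟩
  have ev2 : ∀ d : R, ∀ᶠ p in residual (R × R), Eqv (F2 (xr p.2 d)) (f (xr p.2 d)) := fun d =>
    ev_comp ((xr_const_cont d).comp continuous_snd) ((xr_const_open d).comp isOpenMap_snd) r2.2
  filter_upwards [ev_comp continuous_snd isOpenMap_snd r2.2, ev2 d, ev2 (d' false), ev2 (d' true),
    eventually_countable_forall.2 fun σ : List Bool =>
      tr1 _ ((spl_cont k o).comp (app_cont σ)) ((spl_open k o).comp (app_open σ)) d,
    eventually_countable_forall.2 fun σ : List Bool => eventually_countable_forall.2 fun c : Bool =>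
      tr1 _ ((spl_cont 1 o).comp ((spl_cont k β).comp (app_cont σ)))
        ((spl_open 1 o).comp ((spl_open k β).comp (app_open σ))) (d' c),
    eventually_countable_forall.2 fun σ : List Bool =>
      ev_comp (((spl_cont k β).comp (app_cont σ)).comp continuous_fst)
        (((spl_open k β).comp (app_open σ)).comp isOpenMap_fst) Ht] with p p1 p2 p3 p4 p5 p6 p7
  obtain ⟨z, v⟩ := p
  simp only [Function.comp] at p1 p2 p3 p4 p5 p6 p7 ⊢
  have hdf : ∀ c n, k + 1 ≤ n → d' c n = false := by
    intro c n hn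
    simp only [xr, spl, hd', ho]
    split_ifs <;> first | omega | simp
  set Q : R := jn (jn (F2 v) (F2 (xr v d))) (jn (F2 (xr v (d' false))) (F2 (xr v (d' true))))
    with hQ
  refine ⟨Q, (p1.1.jn (rd v d (fun n hn => ?_) p2)).jn
    ((rd v _ (hdf false) p3).jn (rd v _ (hdf true) p4)), ?_⟩
  · simp only [spl, hd, ho]; rw [if_neg (by omega)]
  set O : List Bool → R := fun σ => jn (F1 (spl k o (app σ z))) Q with hO
  have o1 : UC O fun σ => F1 (spl k o (app σ z)) := UC.left (Y' := fun _ => Q) UC.oracle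
  have o2 : UC O fun _ => Q := UC.right (Y := fun σ => F1 (spl k o (app σ z))) UC.oracle
  have s1 : UC O fun σ => F1 (spl k β (app σ z)) := by
    simpa only [e1] using tr2 o1 o2.left.left o2.left.right p5
  have s2 : UC O fun σ => F1 (spl 1 o (spl k β (app σ z))) :=
    UC.app (h1 e) s1 fun σ => p7 σ (hk _ fun n hn => by simp [spl, hn])
  have s3 : UC O fun σ => O (false :: σ) := by
    refine UC.jn ?_ o2
    simpa only [e2, app] using tr2 s2 o2.left.left o2.right.left fun σ => p6 σ false
  have s4 : UC O fun σ => O (true :: σ) := by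
    refine UC.jn ?_ o2
    simpa only [e2, app] using tr2 s2 o2.left.left o2.right.right fun σ => p6 σ true
  have s5 : UC O fun σ (q : Bool × ℕ) => O (q.1 :: σ) q.2 := by
    refine (((UC.prim Primrec.fst).pair ((s3.arg Primrec.snd).pair (s4.arg Primrec.snd))).map
      (g := fun w : Bool × Bool × Bool => bif w.1 then w.2.2 else w.2.1)
      (Primrec.dom_finite _)).of_eq fun σ q => ?_
    obtain ⟨c, n⟩ := q
    cases c <;> rfl
  refine ((iter s5).arg (g := fun q : List Bool × ℕ => (q.1, 2 * q.2))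
    (Primrec.pair Primrec.fst (Primrec.nat_mul.comp (Primrec.const 2) Primrec.snd))).of_eq
    fun _ q => ?_
  simp [hO, jn]

end Crest.Agent.R292
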